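import Mathlib

/-! The setting for counting copies inside a host of bounded tree-width. -/

namespace Vale.Agent.P064.Tw

open Finset

/-- `H` is a subgraph of a graph `G` having a perfect elimination order (the injection `ord`)
in which every vertex has at most `k` earlier neighbours. -/
def TreewidthLE {v : ℕ} (k : ℕ) (H : SimpleGraph (Fin v)) : Prop :=
  ∃ (G : SimpleGraph (Fin v)) (ord : Fin v → ℕ), Function.Injective ord ∧ H ≤ G ∧
    ∀ z, {a | G.Adj a z ∧ ord a < ord z}.ncard ≤ k ∧
      ∀ a b, G.Adj a z → ord a < ord z → G.Adj b z → ord b < ord z → a ≠ b → G.Adj a b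

/-- The loss in the counting bound for width `k`. -/
noncomputable def twLoss (k : ℕ) : ℝ := 10 ^ 20 * ((k : ℝ) + 1) ^ 10

/-- The data of a host with an elimination order. -/
structure Frame (V : Type) where
  /-- The width. -/
  k : ℕ
  /-- The number of vertices of the ambient complete graph. -/
  n : ℕ
  /-- The edge density. -/
  q : ℝ
  /-- The edges of the host. -/
  EH : Finset (Sym2 V)
  /-- A default vertex. -/
  v0 : V
  /-- The position of a vertex. -/
  ord : V → ℕ
  /-- The earlier neighbours in the chordal completion. -/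
  K : V → Finset V

variable {α V : Type} [Fintype α] [DecidableEq α] [Fintype V] [DecidableEq V]

/-- The conditions on a frame. -/
structure Frame.Valid (C : Frame V) : Prop where
  nn : 2 ≤ C.n
  hcard : Fintype.card V ≤ C.n
  q0 : 0 < C.q
  qk : ((C.k : ℝ) + 1) * C.q ≤ 1
  inj : Function.Injective C.ord
  klt : ∀ a z, a ∈ C.K z → C.ord a < C.ord z
  kcard : ∀ z, (C.K z).card ≤ C.k
  clique : ∀ a b z, a ∈ C.K z → b ∈ C.K z → C.ord a < C.ord b → a ∈ C.K b
  edge : ∀ a b, s(a, b) ∈ C.EH → C.ord a < C.ord b → a ∈ C.K b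
  ndiag : ∀ e ∈ C.EH, ¬ e.IsDiag
  orbit : ∀ (A : Finset V) (E : Finset (Sym2 V)), E ⊆ C.EH → (∀ e ∈ E, ∀ a ∈ e, a ∈ A) →
    (1 / 2 : ℝ) ≤ ((univ : Finset (V ↪ Fin C.n)).image
      fun π : V ↪ Fin C.n => (A.image π, E.image (Sym2.map π))).card * C.q ^ E.card

/-- Labelled embeddings of a pattern, extended by a default value. -/
def embs (v0 : V) (EH : Finset (Sym2 V)) (X : Finset α) (DF : Finset (Sym2 α)) :
    Finset (α → V) :=
  univ.filter fun g => (∀ a, a ∉ X → g a = v0) ∧ (∀ a ∈ X, ∀ b ∈ X, g a = g b → a = b)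
    ∧ ∀ e ∈ DF, e.map g ∈ EH

/-- A pattern without isolated vertices and loops. -/
structure IsPattern (X : Finset α) (DF : Finset (Sym2 α)) : Prop where
  ndF : ∀ e ∈ DF, ¬ e.IsDiag
  sub : ∀ e ∈ DF, ∀ a ∈ e, a ∈ X
  cov : ∀ a ∈ X, ∃ e ∈ DF, a ∈ e

/-- A parent map pointing to an earlier neighbour. -/
def Frame.IsPar (C : Frame V) (par : V → Option V) : Prop :=
  ∀ y p, par y = some p → p ∈ C.K y

/-- The children of a vertex. -/
def children (par : V → Option V) (z : V) : Finset V := univ.filter fun y => par y = some z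

/-- The roots. -/
def rootSet (par : V → Option V) : Finset V := univ.filter fun y => par y = none

/-- Sums of products over ordered tuples of distinct elements. -/
noncomputable def injSum (h : V → ℝ) : ℕ → Finset V → ℝ
  | 0, _ => 1
  | c + 1, S => ∑ y ∈ S, h y * injSum h c (S.erase y)

/-- The loss per vertex. -/
noncomputable def Frame.K0 (C : Frame V) : ℝ := 4000 * ((C.k : ℝ) + 1)

end Vale.Agent.P064.Tw
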