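import Vale.Agent.P064.Tw.Base

/-! The elimination forest that an embedded pattern inherits from the order of the host. -/

namespace Vale.Agent.P064.Tw

open Finset
open scoped Classical

set_option linter.unusedSectionVars false

variable {α V : Type} [Fintype α] [DecidableEq α] [Fintype V] [DecidableEq V]

/-- The part of the pattern reachable from `x` through vertices not before `x`. -/
noncomputable def piece (X : Finset α) (DF : Finset (Sym2 α)) (o : α → ℕ) (x : α) : Finset α :=
  X.filter fun y => x ∈ X ∧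
    Relation.ReflTransGen (fun a b => s(a, b) ∈ DF ∧ o x ≤ o a ∧ o x ≤ o b) x y

/-- The outer neighbours of a vertex set. -/
noncomputable def outer (X : Finset α) (DF : Finset (Sym2 α)) (P : Finset α) : Finset α :=
  X.filter fun a => a ∉ P ∧ ∃ u ∈ P, s(a, u) ∈ DF

/-- The latest outer neighbour of the piece of a vertex. -/
noncomputable def parent (X : Finset α) (DF : Finset (Sym2 α)) (o : α → ℕ) (x : α) : Option α :=
  if h : (outer X DF (piece X DF o x)).Nonempty then some (exists_max_image _ o h).choose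
  else none

/-- A forest structure: the piece and the parent of every vertex. -/
abbrev Shape (α : Type) : Type := (α → Finset α) × (α → Option α)

/-- The shape given by an order of the pattern. -/
noncomputable def shapeOf (X : Finset α) (DF : Finset (Sym2 α)) (o : α → ℕ) : Shape α :=
  (piece X DF o, parent X DF o)

/-- The edges meeting a set. -/
noncomputable def touching (DF : Finset (Sym2 α)) (P : Finset α) : Finset (Sym2 α) :=
  DF.filter fun e => ∃ a ∈ e, a ∈ P

/-- The children of a vertex of the pattern. -/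
noncomputable def kids (X : Finset α) (S : Shape α) (x : α) : Finset α :=
  X.filter fun d => S.2 d = some x

/-- The roots of the pattern. -/
noncomputable def topSet (X : Finset α) (S : Shape α) : Finset α := X.filter fun d => S.2 d = none

/-- The edges from a vertex out of its piece. -/
noncomputable def low (DF : Finset (Sym2 α)) (S : Shape α) (x : α) : Finset (Sym2 α) :=
  DF.filter fun e => x ∈ e ∧ ∃ a ∈ e, a ∉ S.1 x

/-- The properties of a shape used in the counting. -/
structure IsShape (X : Finset α) (DF : Finset (Sym2 α)) (S : Shape α) : Prop where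
  mem : ∀ x ∈ X, x ∈ S.1 x
  sub : ∀ x ∈ X, S.1 x ⊆ X
  split : ∀ x ∈ X, S.1 x = insert x ((kids X S x).biUnion S.1)
  notin : ∀ x ∈ X, ∀ d ∈ kids X S x, x ∉ S.1 d
  disj : ∀ x ∈ X, ((kids X S x : Finset α) : Set α).Pairwise fun d d' => Disjoint (S.1 d) (S.1 d')
  top_split : X = (topSet X S).biUnion S.1
  top_disj : ((topSet X S : Finset α) : Set α).Pairwise fun d d' => Disjoint (S.1 d) (S.1 d')
  parent_mem : ∀ x ∈ X, ∀ p, S.2 x = some p → p ∈ outer X DF (S.1 x)
  top_outer : ∀ x ∈ topSet X S, outer X DF (S.1 x) = ∅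
  outer_step : ∀ x ∈ X, ∀ d ∈ kids X S x, ∀ a ∈ outer X DF (S.1 d), a = x ∨ a ∈ outer X DF (S.1 x)
  touch : ∀ x ∈ X, (touching DF (S.1 x)).card =
    (low DF S x).card + ∑ d ∈ kids X S x, (touching DF (S.1 d)).card
  top_touch : DF.card = ∑ d ∈ topSet X S, (touching DF (S.1 d)).card

/-! ### Pieces -/

section pieces

variable {X : Finset α} {DF : Finset (Sym2 α)} {o : α → ℕ}

theorem mem_piece {x y : α} : y ∈ piece X DF o x ↔ y ∈ X ∧ x ∈ X ∧
    Relation.ReflTransGen (fun a b => s(a, b) ∈ DF ∧ o x ≤ o a ∧ o x ≤ o b) x y := by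
  simp [piece]

theorem self_mem_piece {x : α} (hx : x ∈ X) : x ∈ piece X DF o x := mem_piece.2 ⟨hx, hx, .refl⟩

theorem le_of_mem_piece {x y : α} (h : y ∈ piece X DF o x) : o x ≤ o y := by
  obtain ⟨-, -, h⟩ := mem_piece.1 h
  cases h with
  | refl => exact le_rfl
  | tail _ hs => exact hs.2.2

theorem path_symm {m : ℕ} {x y : α}
    (h : Relation.ReflTransGen (fun a b => s(a, b) ∈ DF ∧ m ≤ o a ∧ m ≤ o b) x y) :
    Relation.ReflTransGen (fun a b => s(a, b) ∈ DF ∧ m ≤ o a ∧ m ≤ o b) y x := by
  induction h with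
  | refl => exact .refl
  | tail _ hs ih => exact .head ⟨Sym2.eq_swap ▸ hs.1, hs.2.2, hs.2.1⟩ ih

theorem piece_mono {x d : α} (hd : d ∈ piece X DF o x) : piece X DF o d ⊆ piece X DF o x := by
  intro z hz
  obtain ⟨hzX, -, hp⟩ := mem_piece.1 hz
  obtain ⟨-, hxX, hq⟩ := mem_piece.1 hd
  have hle := le_of_mem_piece hd
  exact mem_piece.2 ⟨hzX, hxX,
    hq.trans (Relation.ReflTransGen.mono (fun a b ⟨h1, h2, h3⟩ =>
      ⟨h1, hle.trans h2, hle.trans h3⟩) _ _ hp)⟩

theorem piece_absorb {x y w : α} (hy : y ∈ piece X DF o x) (hw : w ∈ X) (he : s(y, w) ∈ DF)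
    (hle : o x ≤ o w) : w ∈ piece X DF o x :=
  mem_piece.2 ⟨hw, (mem_piece.1 hy).2.1,
    (mem_piece.1 hy).2.2.tail ⟨he, le_of_mem_piece hy, hle⟩⟩

theorem lt_of_mem_outer {x a : α} (ha : a ∈ outer X DF (piece X DF o x)) : o a < o x := by
  obtain ⟨haX, hna, u, hu, he⟩ := mem_filter.1 ha
  by_contra hlt
  exact hna (piece_absorb hu haX (Sym2.eq_swap ▸ he) (not_lt.1 hlt))

theorem mem_piece_of_outer {d a : α} (hd : d ∈ X) (ha : a ∈ outer X DF (piece X DF o d)) :
    d ∈ piece X DF o a := by
  have hle := (lt_of_mem_outer ha).le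
  obtain ⟨haX, -, u, hu, he⟩ := mem_filter.1 ha
  obtain ⟨-, -, hp⟩ := mem_piece.1 hu
  refine mem_piece.2 ⟨hd, haX, .head ⟨he, le_rfl, hle.trans (le_of_mem_piece hu)⟩ ?_⟩
  exact path_symm (Relation.ReflTransGen.mono (fun p q ⟨h1, h2, h3⟩ =>
    ⟨h1, hle.trans h2, hle.trans h3⟩) _ _ hp)

/-- A path into a set from outside crosses its boundary. -/
theorem exists_cross {R : α → α → Prop} {P : α → Prop} {x y : α}
    (h : Relation.ReflTransGen R x y) (hx : ¬P x) (hy : P y) : ∃ a u, R a u ∧ ¬P a ∧ P u := by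
  induction h with
  | refl => exact absurd hy hx
  | @tail b c _ hs ih =>
    by_cases hb : P b
    · exact ih hb
    · exact ⟨b, c, hs, hb, hy⟩

/-- Two pieces with a common point are nested. -/
theorem piece_nested {x y z : α} (hzx : z ∈ piece X DF o x) (hzy : z ∈ piece X DF o y)
    (hle : o x ≤ o y) : y ∈ piece X DF o x := by
  obtain ⟨-, hxX, hp⟩ := mem_piece.1 hzx
  obtain ⟨-, hyX, hq⟩ := mem_piece.1 hzy
  exact mem_piece.2 ⟨hyX, hxX,
    hp.trans (path_symm (Relation.ReflTransGen.mono (fun a b ⟨h1, h2, h3⟩ =>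
      ⟨h1, hle.trans h2, hle.trans h3⟩) _ _ hq))⟩

theorem parent_spec {x p : α} (h : parent X DF o x = some p) :
    p ∈ outer X DF (piece X DF o x) ∧ ∀ a ∈ outer X DF (piece X DF o x), o a ≤ o p := by
  rw [parent] at h
  split_ifs at h with hne
  cases h
  exact (exists_max_image _ o hne).choose_spec

theorem parent_eq_none {x : α} (h : parent X DF o x = none) :
    outer X DF (piece X DF o x) = ∅ := by
  rw [parent] at h
  split_ifs at h with hne
  exact not_nonempty_iff_eq_empty.1 hne

theorem exists_parent {x a : α} (ha : a ∈ outer X DF (piece X DF o x)) :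
    ∃ p, parent X DF o x = some p := by
  rw [parent, dif_pos ⟨a, ha⟩]
  exact ⟨_, rfl⟩

/-- A piece lies in the piece of its parent, which is not in it. -/
theorem kid_facts {x d : α} (hd : d ∈ X) (h : parent X DF o d = some x) :
    o x < o d ∧ d ∈ piece X DF o x ∧ piece X DF o d ⊆ piece X DF o x ∧ x ∉ piece X DF o d := by
  have h1 := (parent_spec h).1
  exact ⟨lt_of_mem_outer h1, mem_piece_of_outer hd h1, piece_mono (mem_piece_of_outer hd h1),
    (mem_filter.1 h1).2.1⟩

/-- A point of a piece different from its centre lies in the piece of a child. -/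
theorem exists_kid (hP : IsPattern X DF) (ho : Set.InjOn o X) {x y : α}
    (hy : y ∈ piece X DF o x) (hne : y ≠ x) :
    ∃ d ∈ X, parent X DF o d = some x ∧ y ∈ piece X DF o d := by
  have hxX := (mem_piece.1 hy).2.1
  set Z := (piece X DF o x).filter fun z => z ≠ x ∧ y ∈ piece X DF o z with hZ
  have hZne : Z.Nonempty :=
    ⟨y, mem_filter.2 ⟨hy, hne, self_mem_piece (mem_piece.1 hy).1⟩⟩
  obtain ⟨d, hdZ, hmin⟩ := exists_min_image Z o hZne
  obtain ⟨hdx, hdne, hyd⟩ := mem_filter.1 hdZ
  have hdX := (mem_piece.1 hdx).1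
  have hlt : o x < o d :=
    lt_of_le_of_ne (le_of_mem_piece hdx) fun e => hdne (ho hdX hxX e.symm)
  have honly : ∀ a ∈ outer X DF (piece X DF o d), o x ≤ o a → a = x := by
    intro a ha hle
    by_contra hax
    obtain ⟨haX, -, u, hu, he⟩ := mem_filter.1 ha
    have hax' : a ∈ piece X DF o x :=
      piece_absorb (piece_mono hdx hu) haX (Sym2.eq_swap ▸ he) hle
    have := hmin a (mem_filter.2 ⟨hax', hax, piece_mono (mem_piece_of_outer hdX ha) hyd⟩)
    have := lt_of_mem_outer ha
    omega
  have hxout : x ∈ outer X DF (piece X DF o d) := by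
    obtain ⟨a, u, ⟨he, hle, -⟩, hna, hu⟩ := exists_cross (P := (· ∈ piece X DF o d))
      (mem_piece.1 hy).2.2 (fun h => absurd (le_of_mem_piece h) (by omega)) hyd
    have haX : a ∈ X := hP.sub _ he a (Sym2.mem_mk_left a u)
    have haout : a ∈ outer X DF (piece X DF o d) := mem_filter.2 ⟨haX, hna, u, hu, he⟩
    rwa [← honly a haout hle]
  obtain ⟨p, hp⟩ := exists_parent hxout
  refine ⟨d, hdX, ?_, hyd⟩
  rw [hp, honly p (parent_spec hp).1 ((parent_spec hp).2 x hxout)]

/-- If d' is in the piece of another vertex d then its parent is not before d. -/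
theorem parent_above (hP : IsPattern X DF) (ho : Set.InjOn o X) {d d' : α}
    (h : d' ∈ piece X DF o d) (hne : d' ≠ d) :
    ∃ p, parent X DF o d' = some p ∧ o d ≤ o p := by
  obtain ⟨hd'X, hdX, hpath⟩ := mem_piece.1 h
  have hlt : o d < o d' := lt_of_le_of_ne (le_of_mem_piece h) fun e => hne (ho hd'X hdX e.symm)
  obtain ⟨a, u, ⟨he, hle, -⟩, hna, hu⟩ := exists_cross (P := (· ∈ piece X DF o d')) hpath
    (fun hh => absurd (le_of_mem_piece hh) (by omega)) (self_mem_piece hd'X)
  have haout : a ∈ outer X DF (piece X DF o d') :=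
    mem_filter.2 ⟨hP.sub _ he a (Sym2.mem_mk_left a u), hna, u, hu, he⟩
  obtain ⟨p, hp⟩ := exists_parent haout
  exact ⟨p, hp, hle.trans ((parent_spec hp).2 a haout)⟩

/-- Pieces with the same parent are disjoint. -/
theorem same_parent_disjoint (hP : IsPattern X DF) (ho : Set.InjOn o X) {d d' : α}
    (hd : d ∈ X) (hd' : d' ∈ X) (hne : d ≠ d') (h : parent X DF o d = parent X DF o d') :
    Disjoint (piece X DF o d) (piece X DF o d') := by
  rw [disjoint_left]
  intro z hz hz'
  wlog hle : o d ≤ o d' generalizing d d'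
  · exact this hd' hd hne.symm h.symm hz' hz (le_of_not_ge hle)
  obtain ⟨p, hp, hpd⟩ := parent_above hP ho (piece_nested hz hz' hle) hne.symm
  rw [hp] at h
  have := (kid_facts hd h).1
  omega

end pieces

/-- An order gives a shape. -/
theorem shapeOf_isShape {X : Finset α} {DF : Finset (Sym2 α)} (hP : IsPattern X DF) {o : α → ℕ}
    (ho : Set.InjOn o X) : IsShape X DF (shapeOf X DF o) := by
  have hkid : ∀ {x d}, d ∈ kids X (shapeOf X DF o) x →
      d ∈ X ∧ parent X DF o d = some x := fun h => mem_filter.1 h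
  have htop : ∀ {d}, d ∈ topSet X (shapeOf X DF o) → d ∈ X ∧ parent X DF o d = none :=
    fun h => mem_filter.1 h
  have hsub : ∀ x, piece X DF o x ⊆ X := fun x => filter_subset _ _
  have hout : ∀ x ∈ X, ∀ d ∈ kids X (shapeOf X DF o) x, ∀ a ∈ outer X DF (piece X DF o d),
      a = x ∨ a ∈ outer X DF (piece X DF o x) := by
    intro x hx d hd a ha
    obtain ⟨hdX, hp⟩ := hkid hd
    by_cases hax : a = x
    · exact .inl hax
    obtain ⟨haX, -, u, hu, he⟩ := mem_filter.1 ha
    refine .inr (mem_filter.2 ⟨haX, fun h => hax (ho haX hx ?_), u,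
      (kid_facts hdX hp).2.2.1 hu, he⟩)
    exact le_antisymm ((parent_spec hp).2 a ha) (le_of_mem_piece h)
  have hsplit : ∀ x ∈ X, piece X DF o x =
      insert x ((kids X (shapeOf X DF o) x).biUnion (piece X DF o)) := by
    intro x hx
    ext y
    simp only [mem_insert, mem_biUnion]
    constructor
    · intro hy
      by_cases hne : y = x
      · exact .inl hne
      · obtain ⟨d, hdX, hp, hyd⟩ := exists_kid hP ho hy hne
        exact .inr ⟨d, mem_filter.2 ⟨hdX, hp⟩, hyd⟩
    · rintro (rfl | ⟨d, hd, hyd⟩)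
      · exact self_mem_piece hx
      · exact (kid_facts (hkid hd).1 (hkid hd).2).2.2.1 hyd
  have hnotin : ∀ x, ∀ d ∈ kids X (shapeOf X DF o) x, x ∉ piece X DF o d :=
    fun x d hd => (kid_facts (hkid hd).1 (hkid hd).2).2.2.2
  have htsplit : X = (topSet X (shapeOf X DF o)).biUnion (piece X DF o) := by
    ext y
    simp only [mem_biUnion]
    refine ⟨fun hy => ?_, fun ⟨d, _, h⟩ => hsub d h⟩
    obtain ⟨z, hz, hmin⟩ := exists_min_image (X.filter fun z => y ∈ piece X DF o z) o
      ⟨y, mem_filter.2 ⟨hy, self_mem_piece hy⟩⟩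
    obtain ⟨hzX, hyz⟩ := mem_filter.1 hz
    refine ⟨z, mem_filter.2 ⟨hzX, ?_⟩, hyz⟩
    by_contra hne
    obtain ⟨p, hp⟩ := Option.ne_none_iff_exists'.1 hne
    obtain ⟨h1, -, h2, -⟩ := kid_facts hzX hp
    have := hmin p (mem_filter.2 ⟨(mem_filter.1 (parent_spec hp).1).1, h2 hyz⟩)
    omega
  have hdisj : ∀ x, ((kids X (shapeOf X DF o) x : Finset α) : Set α).Pairwise
      fun d d' => Disjoint (piece X DF o d) (piece X DF o d') := fun x d hd d' hd' hne =>
    same_parent_disjoint hP ho (hkid hd).1 (hkid hd').1 hne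
      ((hkid hd).2.trans (hkid hd').2.symm)
  have htdisj : ((topSet X (shapeOf X DF o) : Finset α) : Set α).Pairwise
      fun d d' => Disjoint (piece X DF o d) (piece X DF o d') := fun d hd d' hd' hne =>
    same_parent_disjoint hP ho (htop hd).1 (htop hd').1 hne
      ((htop hd).2.trans (htop hd').2.symm)
  refine ⟨fun x hx => self_mem_piece hx, fun x _ => hsub x, hsplit, fun x _ => hnotin x,
    fun x _ => hdisj x, htsplit, htdisj, fun x _ p hp => (parent_spec hp).1,
    fun x hx => parent_eq_none (htop hx).2, hout, ?_, ?_⟩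
  · intro x hx
    change (touching DF (piece X DF o x)).card = _ + ∑ d ∈ _, (touching DF (piece X DF o d)).card
    rw [← card_biUnion, ← card_union_of_disjoint]
    · congr 1
      ext e
      simp only [touching, low, mem_union, mem_biUnion, mem_filter]
      constructor
      · rintro ⟨he, a, hae, ha⟩
        by_cases hlow : x ∈ e ∧ ∃ b ∈ e, b ∉ piece X DF o x
        · exact .inl ⟨he, hlow⟩
        · obtain ⟨b, hbe, hb, hbx⟩ : ∃ b ∈ e, b ∈ piece X DF o x ∧ b ≠ x := by
            by_cases hax : a = x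
            · obtain ⟨b, rfl⟩ := Sym2.mem_iff_exists.1 (hax ▸ hae)
              refine ⟨b, Sym2.mem_mk_right x b, ?_, fun h => hP.ndF _ he (h ▸ rfl)⟩
              by_contra hb
              exact hlow ⟨Sym2.mem_mk_left x b, b, Sym2.mem_mk_right x b, hb⟩
            · exact ⟨a, hae, ha, hax⟩
          obtain ⟨d, hdX, hp, hbd⟩ := exists_kid hP ho hb hbx
          exact .inr ⟨d, mem_filter.2 ⟨hdX, hp⟩, he, b, hbe, hbd⟩
      · rintro (⟨he, hxe, -⟩ | ⟨d, hd, he, a, hae, ha⟩)
        · exact ⟨he, x, hxe, self_mem_piece hx⟩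
        · exact ⟨he, a, hae, (kid_facts (hkid hd).1 (hkid hd).2).2.2.1 ha⟩
    · simp only [disjoint_left, touching, low, mem_biUnion, mem_filter]
      rintro e ⟨he, hxe, a, hae, ha⟩ ⟨d, hd, -, u, hue, hu⟩
      have hxu : u ≠ x := fun h => hnotin x d hd (h ▸ hu)
      obtain ⟨b, rfl⟩ := Sym2.mem_iff_exists.1 hxe
      rcases Sym2.mem_iff.1 hue with rfl | rfl
      · exact hxu rfl
      · rcases Sym2.mem_iff.1 hae with rfl | rfl
        · exact ha (self_mem_piece hx)
        · exact ha ((kid_facts (hkid hd).1 (hkid hd).2).2.2.1 hu)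
    · intro d hd d' hd' hne
      simp only [Function.onFun, disjoint_left, touching, mem_filter]
      rintro e ⟨he, u, hue, hu⟩ ⟨-, w, hwe, hw⟩
      have huw : u ≠ w := fun h => disjoint_left.1 (hdisj x hd hd' hne) hu (h ▸ hw)
      obtain rfl : e = s(w, u) := (Sym2.mem_and_mem_iff (Ne.symm huw)).1 ⟨hwe, hue⟩
      have hwout : w ∈ outer X DF (piece X DF o d) :=
        mem_filter.2 ⟨hsub _ hw, fun h => disjoint_left.1 (hdisj x hd hd' hne) h hw, u, hu, he⟩
      rcases hout x hx d hd w hwout with rfl | h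
      · exact hnotin _ d' hd' hw
      · exact (mem_filter.1 h).2.1 ((kid_facts (hkid hd').1 (hkid hd').2).2.2.1 hw)
  · change DF.card = ∑ d ∈ _, (touching DF (piece X DF o d)).card
    rw [← card_biUnion]
    · congr 1
      ext e
      simp only [touching, mem_biUnion, mem_filter]
      refine ⟨fun he => ?_, fun ⟨_, _, he, _⟩ => he⟩
      induction e using Sym2.ind with
      | _ a b =>
        have haX := hP.sub _ he a (Sym2.mem_mk_left a b)
        rw [htsplit, mem_biUnion] at haX
        obtain ⟨d, hd, had⟩ := haX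
        exact ⟨d, hd, he, a, Sym2.mem_mk_left a b, had⟩
    · intro d hd d' hd' hne
      simp only [Function.onFun, disjoint_left, touching, mem_filter]
      rintro e ⟨he, u, hue, hu⟩ ⟨-, w, hwe, hw⟩
      have huw : u ≠ w := fun h => disjoint_left.1 (htdisj hd hd' hne) hu (h ▸ hw)
      obtain rfl : e = s(w, u) := (Sym2.mem_and_mem_iff (Ne.symm huw)).1 ⟨hwe, hue⟩
      have hwout : w ∈ outer X DF (piece X DF o d) :=
        mem_filter.2 ⟨hsub _ hw, fun h => disjoint_left.1 (htdisj hd hd' hne) h hw, u, hu, he⟩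
      rw [parent_eq_none (htop hd).2] at hwout
      exact notMem_empty _ hwout

theorem injOn_ord_comp [Nonempty V] {C : Frame V} (hC : Function.Injective C.ord) {X : Finset α}
    {g : α → V} (hg : ∀ a ∈ X, ∀ b ∈ X, g a = g b → a = b) :
    Set.InjOn (fun y => C.ord (g y)) X :=
  fun a ha b hb e => hg a ha b hb (hC e)

/-- The outer neighbours of a piece go to earlier neighbours in the completion. -/
theorem outer_mem_K {C : Frame V} (hC : C.Valid) {X : Finset α} {DF : Finset (Sym2 α)}
    (hP : IsPattern X DF) {g : α → V} (hg : g ∈ embs C.v0 C.EH X DF) {x : α} (hx : x ∈ X) {a : α}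
    (ha : a ∈ outer X DF (piece X DF (fun y => C.ord (g y)) x)) : g a ∈ C.K (g x) := by
  obtain ⟨-, -, hinj, hedge⟩ := mem_filter.1 hg
  have : Nonempty V := ⟨C.v0⟩
  set o : α → ℕ := fun y => C.ord (g y) with ho'
  have ho : Set.InjOn o X := injOn_ord_comp hC.inj hinj
  induction hn : (piece X DF o x).card using Nat.strong_induction_on generalizing x a with
  | _ n ih =>
    have hlt := lt_of_mem_outer ha
    obtain ⟨haX, hna, u, hu, he⟩ := mem_filter.1 ha
    by_cases hux : u = x
    · subst hux
      have := hedge _ he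
      rw [Sym2.map_mk] at this
      exact hC.edge _ _ this hlt
    · obtain ⟨d, hdX, hp, hud⟩ := exists_kid hP ho hu hux
      obtain ⟨hxd, -, hsub, hxnd⟩ := kid_facts hdX hp
      have hcard : (piece X DF o d).card < n := by
        rw [← hn]
        exact card_lt_card ⟨hsub, fun h => hxnd (h (self_mem_piece hx))⟩
      have h1 := ih _ hcard hdX (a := a)
        (mem_filter.2 ⟨haX, fun h => hna (hsub h), u, hud, he⟩) rfl
      have h2 := ih _ hcard hdX (a := x) (parent_spec hp).1 rfl
      exact hC.clique _ _ _ h1 h2 hlt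

/-- The index of the parent among the outer neighbours, shifted by one. -/
noncomputable def parentIdx (X : Finset α) (DF : Finset (Sym2 α)) (o : α → ℕ) (x : α) : ℕ :=
  (parent X DF o x).elim 0 fun p => (outer X DF (piece X DF o x)).toList.idxOf p + 1

/-- The code of an order determines the pieces and parents. -/
theorem shape_eq_of_code {X : Finset α} {DF : Finset (Sym2 α)} (hP : IsPattern X DF)
    {o o' : α → ℕ} (ho : Set.InjOn o X) (ho' : Set.InjOn o' X)
    (hor : ∀ e ∈ DF, o e.out.1 < o e.out.2 ↔ o' e.out.1 < o' e.out.2)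
    (hidx : ∀ x ∈ X, parentIdx X DF o x = parentIdx X DF o' x) :
    shapeOf X DF o = shapeOf X DF o' := by
  have hpar : ∀ x ∈ X, piece X DF o x = piece X DF o' x →
      parent X DF o x = parent X DF o' x := by
    intro x hx heq
    have h := hidx x hx
    unfold parentIdx at h
    rw [← heq] at h
    cases hp : parent X DF o x with
    | none =>
      cases hp' : parent X DF o' x with
      | none => rfl
      | some q => simp [hp, hp'] at h
    | some p =>
      cases hp' : parent X DF o' x with
      | none => simp [hp, hp'] at h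
      | some q =>
        simp only [hp, hp', Option.elim_some, Nat.add_right_cancel_iff] at h
        rw [(List.idxOf_inj (mem_toList.2 (parent_spec hp).1)).1 h]
  have hpiece : ∀ x ∈ X, piece X DF o x = piece X DF o' x := by
    intro x hx
    induction hn : (piece X DF o x).card using Nat.strong_induction_on generalizing x with
    | _ n ih =>
      have hkids : ∀ y ∈ piece X DF o x, y ≠ x → ∃ d ∈ X, parent X DF o d = some x ∧
          parent X DF o' d = some x ∧ y ∈ piece X DF o d ∧
          piece X DF o d = piece X DF o' d := by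
        intro y hy hne
        obtain ⟨d, hdX, hp, hyd⟩ := exists_kid hP ho hy hne
        obtain ⟨-, -, hsub, hxnd⟩ := kid_facts hdX hp
        have heq := ih _ (hn ▸ card_lt_card ⟨hsub, fun h => hxnd (h (self_mem_piece hx))⟩) d hdX rfl
        exact ⟨d, hdX, hp, (hpar d hdX heq) ▸ hp, hyd, heq⟩
      have hle : piece X DF o x ⊆ piece X DF o' x := by
        intro y hy
        by_cases hne : y = x
        · rw [hne]; exact self_mem_piece hx
        · obtain ⟨d, hdX, -, hp', hyd, heq⟩ := hkids y hy hne
          exact (kid_facts hdX hp').2.2.1 (heq ▸ hyd)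
      refine hle.antisymm fun y hy => ?_
      by_contra hny
      obtain ⟨u, a, ⟨he, -, hle'⟩, hu, ha⟩ := exists_cross (P := (· ∉ piece X DF o x))
        (mem_piece.1 hy).2.2 (fun h => h (self_mem_piece hx)) hny
      rw [not_not] at hu
      have haX : a ∈ X := hP.sub _ he a (Sym2.mem_mk_right u a)
      have hlt : o a < o x :=
        lt_of_mem_outer (mem_filter.2 ⟨haX, ha, u, hu, Sym2.eq_swap ▸ he⟩)
      have hax : a ≠ x := fun h => ha (by rw [h]; exact self_mem_piece hx)
      have hlt' : o' x < o' a := lt_of_le_of_ne hle' fun e => hax (ho' haX hx e.symm)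
      by_cases hux : u = x
      · subst hux
        have h := hor _ he
        have hout : s((s(u, a) : Sym2 α).out.1, (s(u, a) : Sym2 α).out.2) = s(u, a) :=
          Quot.out_eq _
        rcases Sym2.eq_iff.1 hout with ⟨h1, h2⟩ | ⟨h1, h2⟩ <;> rw [h1, h2] at h <;> omega
      · obtain ⟨d, hdX, hp, hp', hud, heq⟩ := hkids u hu hux
        have hsub : piece X DF o d ⊆ piece X DF o x := (kid_facts hdX hp).2.2.1
        have hout : a ∈ outer X DF (piece X DF o' d) :=
          mem_filter.2 ⟨haX, fun h => ha (hsub (heq ▸ h)), u, heq ▸ hud, Sym2.eq_swap ▸ he⟩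
        have := (parent_spec hp').2 a hout
        omega
  refine Prod.ext (funext fun x => ?_) (funext fun x => ?_)
  · by_cases hx : x ∈ X
    · exact hpiece x hx
    · change piece X DF o x = piece X DF o' x
      simp [piece, hx]
  · by_cases hx : x ∈ X
    · exact hpar x hx (hpiece x hx)
    · change parent X DF o x = parent X DF o' x
      simp [parent, piece, outer, hx]

/-- Few shapes occur. -/
theorem shape_count {C : Frame V} (hC : C.Valid) {X : Finset α} {DF : Finset (Sym2 α)}
    (hP : IsPattern X DF) :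
    ((embs C.v0 C.EH X DF).image fun g => shapeOf X DF fun y => C.ord (g y)).card
      ≤ 2 ^ DF.card * (C.k + 1) ^ X.card := by
  have : Nonempty V := ⟨C.v0⟩
  let O : (α → V) → α → ℕ := fun g y => C.ord (g y)
  let code : (α → V) → Finset (Sym2 α) × ((x : α) → x ∈ X → ℕ) := fun g =>
    (DF.filter fun e => O g e.out.1 < O g e.out.2, fun x _ => parentIdx X DF (O g) x)
  have hinj : ∀ g ∈ embs C.v0 C.EH X DF, Set.InjOn (O g) X := fun g hg =>
    injOn_ord_comp hC.inj (mem_filter.1 hg).2.2.1
  have hcodes : (embs C.v0 C.EH X DF).image code ⊆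
      DF.powerset ×ˢ X.pi fun _ => range (C.k + 1) := by
    intro c hc
    obtain ⟨g, hg, rfl⟩ := mem_image.1 hc
    refine mem_product.2 ⟨mem_powerset.2 (filter_subset _ _), mem_pi.2 fun x hx => mem_range.2 ?_⟩
    change parentIdx X DF (O g) x < C.k + 1
    rw [parentIdx]
    cases hp : parent X DF (O g) x with
    | none => simp
    | some p =>
      simp only [Option.elim_some, Nat.add_lt_add_iff_right]
      refine lt_of_lt_of_le (List.idxOf_lt_length_iff.2 (mem_toList.2 (parent_spec hp).1)) ?_
      rw [length_toList]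
      refine le_trans (card_le_card_of_injOn g (fun a ha => outer_mem_K hC hP hg hx ha) ?_)
        (hC.kcard (g x))
      exact fun a ha b hb e =>
        (mem_filter.1 hg).2.2.1 a (mem_filter.1 ha).1 b (mem_filter.1 hb).1 e
  refine le_trans (card_le_card_of_surjOn
    (fun c => if h : ∃ g ∈ embs C.v0 C.EH X DF, code g = c then shapeOf X DF (O h.choose)
      else shapeOf X DF (O fun _ => C.v0)) ?_)
    ((card_le_card hcodes).trans (by simp [card_product, card_pi, card_powerset]))
  intro s hs
  obtain ⟨g, hg, rfl⟩ := mem_image.1 hs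
  refine ⟨code g, mem_image_of_mem code hg, ?_⟩
  have h : ∃ g' ∈ embs C.v0 C.EH X DF, code g' = code g := ⟨g, hg, rfl⟩
  obtain ⟨hmem, heq⟩ := h.choose_spec
  simp only [h, dif_pos]
  refine shape_eq_of_code (o' := O g) hP (hinj _ hmem) (hinj g hg) (fun e he => ?_)
    fun x hx => congrFun (congrFun (congrArg Prod.snd heq) x) hx
  have := Finset.ext_iff.1 (congrArg Prod.fst heq) e
  simpa [code, mem_filter, he] using this

end Vale.Agent.P064.Tw
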