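import Vale.Agent.P064.Tw.Witness
import Vale.Agent.P064.Tw.Pieces

/-! Counting embeddings into a host of bounded tree-width. -/

namespace Vale.Agent.P064.Tw

open Finset
open scoped Classical

variable {α V : Type} [Fintype α] [DecidableEq α] [Fintype V] [DecidableEq V]

/-- Restriction to a set, extended by the default value. -/
noncomputable def res (v0 : V) (P : Finset α) (g : α → V) : α → V :=
  fun a => if a ∈ P then g a else v0

/-- Families of restrictions, one for each member of `D`. -/
noncomputable def tuples (dflt : α → V) (A : α → Finset (α → V)) (D : Finset α) (S : Finset V) :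
    Finset (α → α → V) :=
  Fintype.piFinset fun d => if d ∈ D then (A d).filter fun r => r d ∈ S else {dflt}

/-- Those families whose roots are distinct. -/
noncomputable def injTuples (dflt : α → V) (A : α → Finset (α → V)) (D : Finset α) (S : Finset V) :
    Finset (α → α → V) :=
  (tuples dflt A D S).filter fun f => Set.InjOn (fun d => f d d) D

lemma injTuples_le (dflt : α → V) (A : α → Finset (α → V)) (b : α → ℝ) (hb : ∀ d, 0 ≤ b d)
    (h : V → ℝ) (hh : ∀ y, 0 ≤ h y) (D : Finset α)
    (hA : ∀ d ∈ D, ∀ y, (((A d).filter fun r => r d = y).card : ℝ) ≤ b d * h y) :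
    ∀ S : Finset V, ((injTuples dflt A D S).card : ℝ) ≤ (∏ d ∈ D, b d) * injSum h D.card S := by
  induction D using Finset.induction_on with
  | empty =>
    intro S
    simp only [prod_empty, card_empty, injSum, one_mul, Nat.cast_le_one]
    refine card_le_one.2 fun f hf f' hf' => funext fun d => ?_
    have h1 := Fintype.mem_piFinset.1 (mem_filter.1 hf).1 d
    have h2 := Fintype.mem_piFinset.1 (mem_filter.1 hf').1 d
    rw [if_neg (notMem_empty d), mem_singleton] at h1 h2
    rw [h1, h2]
  | insert d₀ D hd ih =>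
    intro S
    have hne : ∀ d ∈ D, d ≠ d₀ := fun d h e => hd (e ▸ h)
    set T := injTuples dflt A (insert d₀ D) S with hT
    have hmaps : ∀ f ∈ T, f d₀ d₀ ∈ S := fun f hf => by
      have h1 := Fintype.mem_piFinset.1 (mem_filter.1 hf).1 d₀
      rw [if_pos (mem_insert_self _ _)] at h1
      exact (mem_filter.1 h1).2
    have hfib : ∀ y ∈ S, ((T.filter fun f => f d₀ d₀ = y).card : ℝ)
        ≤ b d₀ * h y * ((∏ d ∈ D, b d) * injSum h D.card (S.erase y)) := by
      intro y _
      have hc : (T.filter fun f => f d₀ d₀ = y).card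
          ≤ (((A d₀).filter fun r => r d₀ = y) ×ˢ injTuples dflt A D (S.erase y)).card := by
        refine card_le_card_of_injOn (fun f => (f d₀, Function.update f d₀ dflt))
          (fun f hf => ?_) fun f _ f' _ he => funext fun d => ?_
        · obtain ⟨hfT, hfy⟩ := mem_filter.1 hf
          obtain ⟨hft, hinj⟩ := mem_filter.1 hfT
          have h0 := Fintype.mem_piFinset.1 hft d₀
          rw [if_pos (mem_insert_self _ _)] at h0
          refine mem_product.2 ⟨mem_filter.2 ⟨(mem_filter.1 h0).1, hfy⟩,
            mem_filter.2 ⟨Fintype.mem_piFinset.2 fun d => ?_, fun d hdD e heD hde => ?_⟩⟩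
          · show Function.update f d₀ dflt d ∈ _
            by_cases hdD : d ∈ D
            · rw [if_pos hdD, Function.update_of_ne (hne d hdD)]
              have h1 := Fintype.mem_piFinset.1 hft d
              rw [if_pos (mem_insert_of_mem hdD)] at h1
              obtain ⟨h1, h2⟩ := mem_filter.1 h1
              refine mem_filter.2 ⟨h1, mem_erase.2 ⟨fun he => hne d hdD ?_, h2⟩⟩
              exact hinj (mem_coe.2 (mem_insert_of_mem hdD)) (mem_coe.2 (mem_insert_self _ _))
                (he.trans hfy.symm)
            · rw [if_neg hdD, mem_singleton]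
              by_cases hd0 : d = d₀
              · subst hd0; exact Function.update_self _ _ _
              · rw [Function.update_of_ne hd0]
                have h1 := Fintype.mem_piFinset.1 hft d
                rw [if_neg (by simp [hd0, hdD]), mem_singleton] at h1
                exact h1
          · simp only [Function.update_of_ne (hne d hdD), Function.update_of_ne (hne e heD)] at hde
            exact hinj (mem_coe.2 (mem_insert_of_mem hdD)) (mem_coe.2 (mem_insert_of_mem heD)) hde
        · simp only [Prod.mk.injEq] at he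
          by_cases hd0 : d = d₀
          · rw [hd0, he.1]
          · simpa [Function.update_of_ne hd0] using congrFun he.2 d
      refine (Nat.cast_le.2 hc).trans ?_
      rw [card_product, Nat.cast_mul]
      exact mul_le_mul (hA d₀ (mem_insert_self _ _) y)
        (ih (fun d hd => hA d (mem_insert_of_mem hd)) _) (Nat.cast_nonneg _)
        (mul_nonneg (hb d₀) (hh y))
    rw [card_eq_sum_card_fiberwise hmaps, Nat.cast_sum]
    refine (sum_le_sum hfib).trans (le_of_eq ?_)
    rw [card_insert_of_notMem hd, prod_insert hd, injSum, mul_sum]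
    exact sum_congr rfl fun y _ => by ring

lemma tuples_le (dflt : α → V) (A : α → Finset (α → V)) (b : α → ℝ)
    (h : V → ℝ) (D : Finset α) (hb : ∀ d, 0 ≤ b d)
    (hA : ∀ d ∈ D, ∀ y, (((A d).filter fun r => r d = y).card : ℝ) ≤ b d * h y) (S : Finset V) :
    ((tuples dflt A D S).card : ℝ) ≤ ∏ d ∈ D, b d * ∑ y ∈ S, h y := by
  rw [tuples, Fintype.card_piFinset, Nat.cast_prod]
  rw [← prod_filter_mul_prod_filter_not univ (fun d => d ∈ D)]
  have e1 : ∏ d ∈ univ.filter (fun d => ¬ d ∈ D),
      (((if d ∈ D then (A d).filter fun r => r d ∈ S else {dflt}).card : ℕ) : ℝ) = 1 :=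
    prod_eq_one fun d hd => by rw [if_neg (mem_filter.1 hd).2]; simp
  rw [e1, mul_one, filter_univ_mem]
  refine prod_le_prod (fun d _ => Nat.cast_nonneg _) fun d hd => ?_
  have e := card_eq_sum_card_fiberwise (s := (A d).filter fun r => r d ∈ S)
    (f := fun r : α → V => r d) (t := S) (fun r hr => (mem_filter.1 hr).2)
  rw [if_pos hd, mul_sum, e, Nat.cast_sum]
  refine sum_le_sum fun y _ => le_trans (Nat.cast_le.2 (card_le_card ?_)) (hA d hd y)
  exact filter_subset_filter _ (filter_subset _ _)

variable (C : Frame V) (par : V → Option V) (X : Finset α) (DF : Finset (Sym2 α))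

/-- Embeddings of a given shape whose parents agree with the parent map. -/
noncomputable def fitting (S : Shape α) : Finset (α → V) :=
  (embs C.v0 C.EH X DF).filter fun g =>
    (shapeOf X DF fun z => C.ord (g z)) = S ∧ ∀ x ∈ X, par (g x) = (S.2 x).map g

/-- The bound for a piece. -/
noncomputable def pieceBound (S : Shape α) (x : α) : ℝ :=
  C.K0 ^ (2 * (S.1 x).card) / C.K0 * (C.n : ℝ) ^ (S.1 x).card
    * (((C.k : ℝ) + 1) * C.q) ^ (touching DF (S.1 x)).card

variable {C par X DF}

lemma emb_injOn {g : α → V} (hg : g ∈ embs C.v0 C.EH X DF) : Set.InjOn g X :=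
  fun a ha b hb h => (mem_filter.1 hg).2.2.1 a ha b hb h

lemma fitting_spec {S : Shape α} {g : α → V} (hg : g ∈ fitting C par X DF S) :
    g ∈ embs C.v0 C.EH X DF ∧ shapeOf X DF (fun z => C.ord (g z)) = S
      ∧ ∀ x ∈ X, par (g x) = (S.2 x).map g :=
  ⟨(mem_filter.1 hg).1, (mem_filter.1 hg).2.1, (mem_filter.1 hg).2.2⟩

lemma outer_mem_pbag (hC : C.Valid) (hp : C.IsPar par) (hP : IsPattern X DF) {S : Shape α}
    (hS : IsShape X DF S) {g : α → V} (hg : g ∈ fitting C par X DF S) :
    ∀ (m : ℕ) (x : α), x ∈ X → C.ord (g x) < m → ∀ a ∈ outer X DF (S.1 x),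
      g a ∈ pbag C par (g x) := by
  obtain ⟨hge, hsh, hpar⟩ := fitting_spec hg
  intro m
  induction m with
  | zero => intro x _ h; omega
  | succ m ih =>
    intro x hx hlt a ha
    cases hpx : S.2 x with
    | none =>
      rw [hS.top_outer x (mem_filter.2 ⟨hx, hpx⟩)] at ha
      exact absurd ha (notMem_empty a)
    | some p =>
      have hpX : p ∈ X := (mem_filter.1 (hS.parent_mem x hx p hpx)).1
      have hgp : par (g x) = some (g p) := by rw [hpar x hx, hpx]; rfl
      rw [pbag, hgp, Option.elim_some]
      rcases hS.outer_step p hpX x (mem_filter.2 ⟨hx, hpx⟩) a ha with rfl | hap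
      · exact self_mem_bag hC hp _
      · rw [bag_eq hC hp]
        refine mem_insert_of_mem (mem_inter.2 ⟨?_, ih p hpX ?_ a hap⟩)
        · refine outer_mem_K hC hP hge hpX ?_
          rw [show piece X DF (fun z => C.ord (g z)) = S.1 from congrArg Prod.fst hsh]
          exact hap
        · have := par_lt hC hp hgp
          omega

lemma low_le_avail (hC : C.Valid) (hp : C.IsPar par) (hP : IsPattern X DF) {S : Shape α}
    (hS : IsShape X DF S) {g : α → V} (hg : g ∈ fitting C par X DF S) {x : α} (hx : x ∈ X) :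
    (low DF S x).card ≤ (avail C par (g x)).card := by
  obtain ⟨hge, -, -⟩ := fitting_spec hg
  set A := (outer X DF (S.1 x)).filter fun a => s(a, x) ∈ DF with hA
  calc (low DF S x).card ≤ (A.image fun a => s(a, x)).card := by
        refine card_le_card fun e he => ?_
        obtain ⟨heD, hxe, a, hae, haP⟩ := mem_filter.1 he
        have hax : a ≠ x := fun h => haP (h ▸ hS.mem x hx)
        have hee : e = s(a, x) := (Sym2.mem_and_mem_iff hax).1 ⟨hae, hxe⟩
        subst hee
        exact mem_image.2 ⟨a, mem_filter.2 ⟨mem_filter.2 ⟨hP.sub _ heD a hae, haP, x, hS.mem x hx,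
          heD⟩, heD⟩, rfl⟩
    _ ≤ A.card := card_image_le
    _ ≤ _ := by
        refine card_le_card_of_injOn g (fun a ha => ?_)
          ((emb_injOn hge).mono fun a ha => (mem_filter.1 (mem_filter.1 ha).1).1)
        obtain ⟨hao, hae⟩ := mem_filter.1 ha
        refine mem_filter.2 ⟨outer_mem_pbag hC hp hP hS hg _ x hx (Nat.lt_succ_self _) a hao, ?_⟩
        have := (mem_filter.1 hge).2.2.2 _ hae
        rwa [Sym2.map_mk] at this

lemma piece_count (hC : C.Valid) (hp : C.IsPar par) (hP : IsPattern X DF) {S : Shape α}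
    (hS : IsShape X DF S) : ∀ (m : ℕ) (x : α), x ∈ X → (S.1 x).card < m → ∀ y : V,
      (((((fitting C par X DF S).filter fun g => g x = y).image (res C.v0 (S.1 x))).card : ℕ) : ℝ)
        ≤ pieceBound C DF S x * rich C par y := by
  intro m
  induction m with
  | zero => intro x _ h; omega
  | succ m ih =>
    intro x hx hlt y
    set G := (fitting C par X DF S).filter fun g => g x = y with hG
    have hK : 0 < C.K0 := K0_pos C
    have hq := hC.q0
    have hb0 : ∀ d, 0 ≤ pieceBound C DF S d := fun d => by unfold pieceBound; positivity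
    rcases G.eq_empty_or_nonempty with he | ⟨g₀, hg₀⟩
    · rw [he, image_empty, card_empty, Nat.cast_zero]
      exact mul_nonneg (hb0 x) (rich_pos hC hp y).le
    obtain ⟨hg₀f, hg₀x⟩ := mem_filter.1 hg₀
    set D := kids X S x with hD
    have hDX : ∀ d ∈ D, d ∈ X := fun d hd => (mem_filter.1 hd).1
    have hsplit := hS.split x hx
    have hxU : x ∉ D.biUnion S.1 := fun h => by
      obtain ⟨d, hd, hxd⟩ := mem_biUnion.1 h
      exact hS.notin x hx d hd hxd
    have hcard : (S.1 x).card = (∑ d ∈ D, (S.1 d).card) + 1 := by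
      rw [hsplit, card_insert_of_notMem hxU, card_biUnion (hS.disj x hx)]
    have hsmall : ∀ d ∈ D, (S.1 d).card < m := fun d hd => by
      have := single_le_sum (f := fun d => (S.1 d).card) (fun _ _ => Nat.zero_le _) hd
      omega
    set dflt : α → V := fun _ => C.v0 with hdflt
    set A : α → Finset (α → V) := fun d => (fitting C par X DF S).image (res C.v0 (S.1 d)) with hA
    have hAb : ∀ d ∈ D, ∀ y', (((A d).filter fun r => r d = y').card : ℝ)
        ≤ pieceBound C DF S d * rich C par y' := fun d hd y' => by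
      refine le_trans (Nat.cast_le.2 (card_le_card ?_)) (ih d (hDX d hd) (hsmall d hd) y')
      intro r hr
      obtain ⟨hrA, hry⟩ := mem_filter.1 hr
      obtain ⟨g, hg, rfl⟩ := mem_image.1 hrA
      refine mem_image.2 ⟨g, mem_filter.2 ⟨hg, ?_⟩, rfl⟩
      rwa [res, if_pos (hS.mem d (hDX d hd))] at hry
    set split : (α → V) → α → α → V :=
      fun r d => if d ∈ D then res C.v0 (S.1 d) r else dflt with hsp
    have hsubx : ∀ d ∈ D, S.1 d ⊆ S.1 x := fun d hd => by
      rw [hsplit]; exact (subset_biUnion_of_mem S.1 hd).trans (subset_insert _ _)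
    have hmap : (G.image (res C.v0 (S.1 x))).card
        ≤ (injTuples dflt A D (children par y)).card := by
      refine card_le_card_of_injOn split (fun r hr => ?_) fun r hr r' hr' he => funext fun a => ?_
      · obtain ⟨g, hg, rfl⟩ := mem_image.1 hr
        obtain ⟨hgf, hgx⟩ := mem_filter.1 hg
        obtain ⟨hge, -, hpar⟩ := fitting_spec hgf
        have hrr : ∀ d ∈ D, res C.v0 (S.1 d) (res C.v0 (S.1 x) g) = res C.v0 (S.1 d) g := by
          intro d hd
          funext a
          by_cases ha : a ∈ S.1 d
          · simp [res, ha, hsubx d hd ha]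
          · simp [res, ha]
        refine mem_filter.2 ⟨Fintype.mem_piFinset.2 fun d => ?_, fun d hd e he hde => ?_⟩
        · by_cases hd : d ∈ D
          · simp only [hsp, if_pos hd, hrr d hd]
            refine mem_filter.2 ⟨mem_image_of_mem _ hgf, mem_filter.2 ⟨mem_univ _, ?_⟩⟩
            rw [res, if_pos (hS.mem d (hDX d hd)), hpar d (hDX d hd), (mem_filter.1 hd).2,
              Option.map_some, hgx]
          · simp [hsp, hd]
        · simp only [hsp, if_pos (mem_coe.1 hd), if_pos (mem_coe.1 he), res,
            if_pos (hS.mem d (hDX d hd)), if_pos (hS.mem e (hDX e he)),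
            if_pos (hsubx d hd (hS.mem d (hDX d hd))),
            if_pos (hsubx e he (hS.mem e (hDX e he)))] at hde
          exact emb_injOn hge (hDX d hd) (hDX e he) hde
      · obtain ⟨g, hg, rfl⟩ := mem_image.1 hr
        obtain ⟨g', hg', rfl⟩ := mem_image.1 hr'
        by_cases ha : a ∈ S.1 x
        · have ha' := ha
          rw [hsplit, mem_insert] at ha'
          rcases ha' with rfl | ha'
          · simp [res, ha, (mem_filter.1 hg).2, (mem_filter.1 hg').2]
          · obtain ⟨d, hd, had⟩ := mem_biUnion.1 ha'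
            have h := congrFun (congrFun he d) a
            simp only [hsp, res, if_pos (show d ∈ D from hd), if_pos had] at h ⊢
            exact h
        · simp [res, ha]
    have hDv : D.card ∈ range (Fintype.card V + 1) := mem_range.2 (Nat.lt_succ_of_le (by
      refine le_trans ?_ (card_le_univ (D.image g₀))
      exact (card_image_of_injOn ((emb_injOn (fitting_spec hg₀f).1).mono fun d hd => hDX d hd)).ge))
    have hlow : (low DF S x).card ≤ (avail C par y).card :=
      hg₀x ▸ low_le_avail hC hp hP hS hg₀f hx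
    set I := injSum (rich C par) D.card (children par y) with hI
    have hI0 : 0 ≤ I := injSum_nonneg (fun z => (rich_pos hC hp z).le) _ _
    set w := ((C.k : ℝ) + 1) * C.q with hw
    have hw0 : 0 < w := by positivity
    refine le_trans (le_trans (Nat.cast_le.2 hmap) (injTuples_le dflt A (pieceBound C DF S) hb0
      (rich C par) (fun z => (rich_pos hC hp z).le) D hAb (children par y))) ?_
    have hn0 : (0 : ℝ) < C.n := by have := hC.nn; exact_mod_cast (show 0 < C.n by omega)
    have hrich : 1 / (C.n * C.K0) * (1 + 1 / w) ^ (low DF S x).card * (I / C.K0 ^ D.card)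
        ≤ rich C par y := by
      rw [rich_eq hC hp]
      refine mul_le_mul (mul_le_mul_of_nonneg_left (pow_le_pow_right₀ ?_ hlow) (by positivity))
        (single_le_sum (f := fun c => injSum (rich C par) c (children par y) / C.K0 ^ c)
          (fun c _ => div_nonneg (injSum_nonneg (fun z => (rich_pos hC hp z).le) _ _) (by positivity))
          hDv) (div_nonneg hI0 (by positivity)) (by positivity)
      have : 0 ≤ 1 / w := by positivity
      linarith
    have hprod : (∏ d ∈ D, pieceBound C DF S d) * C.K0 ^ D.card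
        = C.K0 ^ (2 * ∑ d ∈ D, (S.1 d).card) * (C.n : ℝ) ^ (∑ d ∈ D, (S.1 d).card)
          * w ^ ∑ d ∈ D, (touching DF (S.1 d)).card := by
      simp only [pieceBound, prod_mul_distrib, prod_div_distrib, prod_const, prod_pow_eq_pow_sum,
        ← mul_sum, ← hw]
      field_simp
    refine le_trans ?_ (mul_le_mul_of_nonneg_left hrich (hb0 x))
    have hone : (1 : ℝ) ≤ w ^ (low DF S x).card * (1 + 1 / w) ^ (low DF S x).card := by
      rw [← mul_pow]
      refine one_le_pow₀ ?_
      rw [mul_add, mul_one, mul_one_div_cancel hw0.ne']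
      linarith
    have hmain : pieceBound C DF S x
        * (1 / (C.n * C.K0) * (1 + 1 / w) ^ (low DF S x).card * (I / C.K0 ^ D.card))
        = (∏ d ∈ D, pieceBound C DF S d) * I
          * (w ^ (low DF S x).card * (1 + 1 / w) ^ (low DF S x).card) := by
      rw [eq_div_of_mul_eq (pow_ne_zero _ hK.ne') hprod, pieceBound, hS.touch x hx, hcard, ← hD,
        ← hw, Nat.mul_add 2, pow_add, pow_add, pow_add, pow_one, Nat.mul_one, pow_two]
      field_simp
    rw [hmain]
    exact le_mul_of_one_le_right (mul_nonneg (prod_nonneg fun d _ => hb0 d) hI0) hone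

lemma fitting_card (hC : C.Valid) (hp : C.IsPar par) (hP : IsPattern X DF) {S : Shape α}
    (hS : IsShape X DF S) : ((fitting C par X DF S).card : ℝ)
      ≤ (6 * C.K0 ^ 2) ^ X.card * (C.n : ℝ) ^ X.card * (((C.k : ℝ) + 1) * C.q) ^ DF.card := by
  have hK : 0 < C.K0 := K0_pos C
  have hK1 : 1 ≤ C.K0 := by
    unfold Frame.K0; nlinarith [(C.k.cast_nonneg : (0 : ℝ) ≤ C.k)]
  have hq := hC.q0
  set D := topSet X S with hD
  have hDX : ∀ d ∈ D, d ∈ X := fun d hd => (mem_filter.1 hd).1
  set dflt : α → V := fun _ => C.v0 with hdflt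
  set A : α → Finset (α → V) := fun d => (fitting C par X DF S).image (res C.v0 (S.1 d)) with hA
  set split : (α → V) → α → α → V :=
    fun r d => if d ∈ D then res C.v0 (S.1 d) r else dflt with hsp
  have hmap : (fitting C par X DF S).card ≤ (tuples dflt A D (rootSet par)).card := by
    refine card_le_card_of_injOn split (fun g hg => ?_) fun g hg g' hg' he => funext fun a => ?_
    · refine Fintype.mem_piFinset.2 fun d => ?_
      by_cases hd : d ∈ D
      · simp only [hsp, if_pos hd]
        refine mem_filter.2 ⟨mem_image_of_mem _ hg, mem_filter.2 ⟨mem_univ _, ?_⟩⟩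
        rw [res, if_pos (hS.mem d (hDX d hd)), (fitting_spec hg).2.2 d (hDX d hd),
          (mem_filter.1 hd).2]
        rfl
      · simp [hsp, hd]
    · by_cases ha : a ∈ X
      · rw [hS.top_split] at ha
        obtain ⟨d, hd, had⟩ := mem_biUnion.1 ha
        simpa [hsp, show d ∈ D from hd, res, had] using congrFun (congrFun he d) a
      · rw [(mem_filter.1 (fitting_spec hg).1).2.1 a ha, (mem_filter.1 (fitting_spec hg').1).2.1 a ha]
  have hb0 : ∀ d, 0 ≤ pieceBound C DF S d := fun d => by unfold pieceBound; positivity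
  have hAb : ∀ d ∈ D, ∀ y, (((A d).filter fun r => r d = y).card : ℝ)
      ≤ pieceBound C DF S d * rich C par y := fun d hd y => by
    refine le_trans (Nat.cast_le.2 (card_le_card ?_))
      (piece_count hC hp hP hS _ d (hDX d hd) (Nat.lt_succ_self _) y)
    intro r hr
    obtain ⟨hrA, hry⟩ := mem_filter.1 hr
    obtain ⟨g, hg, rfl⟩ := mem_image.1 hrA
    refine mem_image.2 ⟨g, mem_filter.2 ⟨hg, ?_⟩, rfl⟩
    rwa [res, if_pos (hS.mem d (hDX d hd))] at hry
  refine le_trans (le_trans (Nat.cast_le.2 hmap) (tuples_le dflt A (pieceBound C DF S)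
    (rich C par) D hb0 hAb (rootSet par))) ?_
  have hsum := rootSum_le hC hp
  have hX : X.card = ∑ d ∈ D, (S.1 d).card := by
    conv_lhs => rw [hS.top_split]
    exact card_biUnion hS.top_disj
  calc ∏ d ∈ D, pieceBound C DF S d * ∑ y ∈ rootSet par, rich C par y
      ≤ ∏ d ∈ D, (6 * C.K0 ^ 2) ^ (S.1 d).card * (C.n : ℝ) ^ (S.1 d).card
          * (((C.k : ℝ) + 1) * C.q) ^ (touching DF (S.1 d)).card := by
        refine prod_le_prod (fun d _ => mul_nonneg (hb0 d)
          (sum_nonneg fun y _ => (rich_pos hC hp y).le)) fun d hd => ?_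
        have h1 : (1 : ℕ) ≤ (S.1 d).card := card_pos.2 ⟨d, hS.mem d (hDX d hd)⟩
        have h6 : (6 : ℝ) ≤ 6 ^ (S.1 d).card := by
          simpa using pow_le_pow_right₀ (by norm_num : (1 : ℝ) ≤ 6) h1
        have hdiv : C.K0 ^ (2 * (S.1 d).card) / C.K0 ≤ (C.K0 ^ 2) ^ (S.1 d).card := by
          rw [← pow_mul]; exact div_le_self (by positivity) hK1
        calc pieceBound C DF S d * ∑ y ∈ rootSet par, rich C par y
            ≤ pieceBound C DF S d * 6 ^ (S.1 d).card :=
              mul_le_mul_of_nonneg_left (hsum.trans h6) (hb0 d)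
          _ ≤ (C.K0 ^ 2) ^ (S.1 d).card * (C.n : ℝ) ^ (S.1 d).card
              * (((C.k : ℝ) + 1) * C.q) ^ (touching DF (S.1 d)).card * 6 ^ (S.1 d).card := by
              refine mul_le_mul_of_nonneg_right ?_ (by positivity)
              unfold pieceBound
              gcongr
          _ = _ := by rw [mul_pow]; ring
    _ = _ := by
        rw [prod_mul_distrib, prod_mul_distrib, prod_pow_eq_pow_sum, prod_pow_eq_pow_sum,
          prod_pow_eq_pow_sum, ← hX, ← hS.top_touch]

/-- Parent maps pointing to earlier neighbours. -/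
noncomputable def parMaps (C : Frame V) : Finset (V → Option V) :=
  Fintype.piFinset fun z => (C.K z).insertNone

lemma card_option_insertNone (s : Finset V) : (s.insertNone).card = s.card + 1 :=
  Finset.card_insertNone s

lemma parMaps_dense (hC : C.Valid) (hP : IsPattern X DF) {g : α → V}
    (hg : g ∈ embs C.v0 C.EH X DF) : (parMaps C).card
      ≤ (C.k + 1) ^ X.card * ((parMaps C).filter fun par =>
          ∀ x ∈ X, par (g x) = ((shapeOf X DF fun z => C.ord (g z)).2 x).map g).card := by
  set o := fun z => C.ord (g z) with ho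
  have hinj : Set.InjOn o X := fun a ha b hb h => emb_injOn hg ha hb (hC.inj h)
  have hS := shapeOf_isShape hP hinj
  set S := shapeOf X DF o with hSdef
  have hmem : ∀ x ∈ X, (S.2 x).map g ∈ (C.K (g x)).insertNone := by
    intro x hx
    cases h : S.2 x with
    | none => simp
    | some p =>
      exact Finset.some_mem_insertNone.2 (outer_mem_K hC hP hg hx (hS.parent_mem x hx p h))
  let Cst : V → Finset (Option V) := fun z =>
    (C.K z).insertNone.filter fun o' => ∀ x ∈ X, g x = z → o' = (S.2 x).map g
  have hsub : Fintype.piFinset Cst ⊆ (parMaps C).filter fun par =>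
      ∀ x ∈ X, par (g x) = (S.2 x).map g := by
    intro par hpar
    have h := fun z => mem_filter.1 (Fintype.mem_piFinset.1 hpar z)
    exact mem_filter.2 ⟨Fintype.mem_piFinset.2 fun z => (h z).1, fun x hx => (h (g x)).2 x hx rfl⟩
  refine le_trans ?_ (Nat.mul_le_mul_left _ (card_le_card hsub))
  rw [parMaps, Fintype.card_piFinset, Fintype.card_piFinset]
  have hpt : ∀ z, (C.K z).insertNone.card
      ≤ (if z ∈ X.image g then C.k + 1 else 1) * (Cst z).card := by
    intro z
    split_ifs with h
    · obtain ⟨x, hx, rfl⟩ := mem_image.1 h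
      have h1 : 0 < (Cst (g x)).card := card_pos.2 ⟨(S.2 x).map g, mem_filter.2
        ⟨hmem x hx, fun x' hx' he => by rw [emb_injOn hg hx' hx he]⟩⟩
      calc (C.K (g x)).insertNone.card ≤ C.k + 1 := by
            rw [card_option_insertNone]; exact Nat.add_le_add_right (hC.kcard _) 1
        _ ≤ _ := Nat.le_mul_of_pos_right _ h1
    · rw [one_mul, show Cst z = (C.K z).insertNone from filter_true_of_mem fun o' _ x hx he =>
        absurd (he ▸ mem_image_of_mem g hx) h]
  refine (prod_le_prod' fun z _ => hpt z).trans ?_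
  rw [prod_mul_distrib, prod_ite_mem, univ_inter, prod_const,
    card_image_of_injOn (emb_injOn hg)]

/-- The counting bound. -/
theorem emb_le (hC : C.Valid) (hP : IsPattern X DF) :
    ((embs C.v0 C.EH X DF).card : ℝ) ≤ (C.n : ℝ) ^ X.card * (twLoss C.k * C.q) ^ DF.card := by
  set E := embs C.v0 C.EH X DF with hE
  set PM := parMaps C with hPM
  have hPM0 : PM.Nonempty := ⟨fun _ => none, Fintype.mem_piFinset.2 fun z => none_mem_insertNone⟩
  set fit : (α → V) → (V → Option V) → Prop :=
    fun g par => ∀ x ∈ X, par (g x) = ((shapeOf X DF fun z => C.ord (g z)).2 x).map g with hfit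
  obtain ⟨par, hparM, hmax⟩ :=
    exists_max_image PM (fun par => (E.filter fun g => fit g par).card) hPM0
  have h1 : E.card ≤ (C.k + 1) ^ X.card * (E.filter fun g => fit g par).card := by
    have hswap : ∑ g ∈ E, (PM.filter fun p => fit g p).card
        = ∑ p ∈ PM, (E.filter fun g => fit g p).card := by
      simp only [card_filter]; exact sum_comm
    have h : E.card * PM.card
        ≤ PM.card * ((C.k + 1) ^ X.card * (E.filter fun g => fit g par).card) := by
      calc E.card * PM.card = ∑ _g ∈ E, PM.card := by rw [sum_const, smul_eq_mul]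
        _ ≤ ∑ g ∈ E, (C.k + 1) ^ X.card * (PM.filter fun p => fit g p).card :=
            sum_le_sum fun g hg => parMaps_dense hC hP hg
        _ = (C.k + 1) ^ X.card * ∑ p ∈ PM, (E.filter fun g => fit g p).card := by
            rw [← mul_sum, hswap]
        _ ≤ (C.k + 1) ^ X.card * (PM.card * (E.filter fun g => fit g par).card) :=
            Nat.mul_le_mul_left _ (sum_le_card_nsmul _ _ _ hmax)
        _ = _ := by ring
    rw [mul_comm] at h
    exact Nat.le_of_mul_le_mul_left h hPM0.card_pos
  have hp : C.IsPar par := fun y p h => by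
    have := Fintype.mem_piFinset.1 hparM y
    rw [h, some_mem_insertNone] at this
    exact this
  set shapes := E.image fun g => shapeOf X DF fun z => C.ord (g z) with hsh
  set M := (6 * C.K0 ^ 2) ^ X.card * (C.n : ℝ) ^ X.card * (((C.k : ℝ) + 1) * C.q) ^ DF.card with hM
  have hq := hC.q0
  have hK := K0_pos C
  have h2 : ((E.filter fun g => fit g par).card : ℝ) ≤ shapes.card * M := by
    calc ((E.filter fun g => fit g par).card : ℝ)
        ≤ ((shapes.biUnion fun S => fitting C par X DF S).card : ℝ) := by
          refine Nat.cast_le.2 (card_le_card fun g hg => ?_)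
          obtain ⟨hgE, hgf⟩ := mem_filter.1 hg
          exact mem_biUnion.2 ⟨_, mem_image_of_mem _ hgE, mem_filter.2 ⟨hgE, rfl, hgf⟩⟩
      _ ≤ ∑ S ∈ shapes, ((fitting C par X DF S).card : ℝ) := by exact_mod_cast card_biUnion_le
      _ ≤ ∑ _S ∈ shapes, M := by
          refine sum_le_sum fun S hS => ?_
          obtain ⟨g, hg, rfl⟩ := mem_image.1 hS
          exact fitting_card hC hp hP
            (shapeOf_isShape hP fun a ha b hb h => emb_injOn hg ha hb (hC.inj h))
      _ = _ := by rw [sum_const, nsmul_eq_mul]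
  have h3 : (shapes.card : ℝ) ≤ 2 ^ DF.card * ((C.k : ℝ) + 1) ^ X.card := by
    exact_mod_cast shape_count hC hP
  have hX2 : X.card ≤ 2 * DF.card := by
    calc X.card ≤ (DF.biUnion fun e => e.toFinset).card := card_le_card fun a ha => by
          obtain ⟨e, he, hae⟩ := hP.cov a ha
          exact mem_biUnion.2 ⟨e, he, Sym2.mem_toFinset.2 hae⟩
      _ ≤ DF.card * 2 := card_biUnion_le.trans (by
          rw [← smul_eq_mul, ← sum_const]
          exact sum_le_sum fun e _ => by rw [Sym2.card_toFinset]; split_ifs <;> omega)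
      _ = _ := mul_comm _ _
  set k₁ := (C.k : ℝ) + 1 with hk₁
  have hk1 : 1 ≤ k₁ := by rw [hk₁]; linarith [(C.k.cast_nonneg : (0 : ℝ) ≤ C.k)]
  have hM0 : 0 ≤ M := by positivity
  have hbase : 1 ≤ k₁ * k₁ * (6 * C.K0 ^ 2) := by
    have : 1 ≤ C.K0 := by rw [Frame.K0, ← hk₁]; linarith
    have : 1 ≤ C.K0 ^ 2 := one_le_pow₀ this
    nlinarith
  calc (E.card : ℝ) ≤ k₁ ^ X.card * (E.filter fun g => fit g par).card := by
        rw [hk₁]; exact_mod_cast h1
    _ ≤ k₁ ^ X.card * (2 ^ DF.card * k₁ ^ X.card * M) := by
        gcongr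
        exact h2.trans (mul_le_mul_of_nonneg_right h3 hM0)
    _ = 2 ^ DF.card * (k₁ * k₁ * (6 * C.K0 ^ 2)) ^ X.card * (C.n : ℝ) ^ X.card
        * (k₁ * C.q) ^ DF.card := by
        simp only [hM, mul_pow]; ring
    _ ≤ 2 ^ DF.card * ((k₁ * k₁ * (6 * C.K0 ^ 2)) ^ 2) ^ DF.card * (C.n : ℝ) ^ X.card
        * (k₁ * C.q) ^ DF.card := by
        rw [← pow_mul]
        gcongr
    _ = (C.n : ℝ) ^ X.card * (2 * (k₁ * k₁ * (6 * C.K0 ^ 2)) ^ 2 * k₁ * C.q) ^ DF.card := by
        simp only [mul_pow]; ring
    _ ≤ _ := by
        gcongr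
        rw [twLoss, Frame.K0, ← hk₁]
        have e : 2 * (k₁ * k₁ * (6 * (4000 * k₁) ^ 2)) ^ 2 * k₁
            = (2 * 36 * 4000 ^ 4) * k₁ ^ 9 := by ring
        rw [e]
        gcongr
        · norm_num
        · norm_num

end Vale.Agent.P064.Tw
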