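import Vale.Agent.P064.Tilde
import Vale.Agent.P064.Tw.Base

/-! From the embedding bound to the thresholds. -/

namespace Vale.Agent.P064.Tw

open Finset Vale.Agent.P063

variable {n v : ℕ}

lemma mem_embs {α V : Type} [Fintype α] [DecidableEq α] [Fintype V] [DecidableEq V] {v0 : V}
    {EH : Finset (Sym2 V)} {X : Finset α} {DF : Finset (Sym2 α)} {g : α → V} :
    g ∈ embs v0 EH X DF ↔ (∀ a, a ∉ X → g a = v0) ∧ (∀ a ∈ X, ∀ b ∈ X, g a = g b → a = b)
      ∧ ∀ e ∈ DF, e.map g ∈ EH := by
  simp [embs]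

open scoped Classical in
/-- The expected number of copies of a subgraph is at most the number of its copies in the complete
graph times the probability of one of them. -/
lemma exp_le_inst {q : ℝ} (hq : 0 ≤ q) (hq1 : q ≤ 1) (H : SimpleGraph (Fin v))
    (A : Finset (Fin v)) (E : Finset (Sym2 (Fin v))) (hE : ∀ e ∈ E, e ∈ H.edgeSet)
    (hA : ∀ e ∈ E, ∀ a ∈ e, a ∈ A) :
    expCopies n q (mkSub H A E hE hA).coe ≤
      ((univ.filter (fun B : (⊤ : SimpleGraph (Fin n)).Subgraph =>
        Nonempty ((mkSub H A E hE hA).coe ≃g B.coe))).card : ℝ) * q ^ E.card := by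
  set S := mkSub H A E hE hA with hS
  set inst := univ.filter (fun B : (⊤ : SimpleGraph (Fin n)).Subgraph =>
    Nonempty (S.coe ≃g B.coe)) with hinst
  rw [expCopies, sum_graph_eq q fun G => ((G.copyCount S.coe : ℕ) : ℝ)]
  have hpt : ∀ x : Pair n → Bool, (((toGraph x).copyCount S.coe : ℕ) : ℝ)
      ≤ ∑ B ∈ inst, if ∀ e : Sym2 (Fin n), e ∈ B.edgeSet → ∃ h : ¬ e.IsDiag, x ⟨e, h⟩ = true
        then (1 : ℝ) else 0 := by
    intro x
    rw [sum_boole, SimpleGraph.copyCount]
    refine Nat.cast_le.2 (card_le_card_of_injOn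
      (fun B' => B'.map (SimpleGraph.Hom.ofLE le_top)) (fun B' hB' => ?_) (fun a _ b _ hab => ?_))
    · obtain ⟨e⟩ := (mem_filter.1 hB').2
      refine mem_filter.2 ⟨mem_filter.2 ⟨mem_univ _, ⟨e.trans
        ((SimpleGraph.Copy.ofLE (toGraph x) ⊤ le_top).isoSubgraphMap B')⟩⟩, fun z hz => ?_⟩
      induction z using Sym2.ind with
      | h a b =>
        rw [SimpleGraph.Subgraph.mem_edgeSet, SimpleGraph.Subgraph.map_adj] at hz
        obtain ⟨a', b', hab', rfl, rfl⟩ := hz
        exact mem_toGraph.1 (B'.adj_sub hab')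
    · refine SimpleGraph.Subgraph.ext ?_ ?_
      · have := congrArg SimpleGraph.Subgraph.verts hab
        simpa using this
      · funext c d
        have := congrArg (fun B => B.Adj c d) hab
        simpa [Relation.map_apply] using this
  refine (Ex_mono hq hq1 hpt).trans (le_of_eq ?_)
  rw [Ex_sum, ← nsmul_eq_mul, ← sum_const]
  refine sum_congr rfl fun B hB => ?_
  obtain ⟨e⟩ := (mem_filter.1 hB).2
  set EB := univ.filter (fun z : Pair n => z.1 ∈ B.edgeSet) with hEB
  have hcard : EB.card = E.card := by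
    symm
    refine card_bij (fun z hz => ⟨Sym2.map (fun a => if h : a ∈ A then (e ⟨a, h⟩).1 else
        (e ⟨z.out.1, hA z hz _ (Sym2.out_fst_mem z)⟩).1) z, ?_⟩) (fun z hz => ?_)
      (fun z hz z' hz' h => ?_) (fun w hw => ?_)
    · induction z using Sym2.ind with
      | h a b =>
        have ha := hA _ hz a (Sym2.mem_mk_left a b)
        have hb := hA _ hz b (Sym2.mem_mk_right a b)
        simp only [Sym2.map_mk, dif_pos ha, dif_pos hb, Sym2.mk_isDiag_iff]
        intro hc
        have := e.injective (Subtype.ext hc)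
        exact (H.ne_of_adj (hE _ hz)) (congrArg Subtype.val this)
    · refine mem_filter.2 ⟨mem_univ _, ?_⟩
      induction z using Sym2.ind with
      | h a b =>
        have ha := hA _ hz a (Sym2.mem_mk_left a b)
        have hb := hA _ hz b (Sym2.mem_mk_right a b)
        simp only [Sym2.map_mk, dif_pos ha, dif_pos hb, SimpleGraph.Subgraph.mem_edgeSet]
        exact e.map_rel_iff.2 (show S.coe.Adj ⟨a, ha⟩ ⟨b, hb⟩ from hz)
    · induction z using Sym2.ind with
      | h a b =>
        induction z' using Sym2.ind with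
        | h c d =>
          have ha := hA _ hz a (Sym2.mem_mk_left a b)
          have hb := hA _ hz b (Sym2.mem_mk_right a b)
          have hc := hA _ hz' c (Sym2.mem_mk_left c d)
          have hd := hA _ hz' d (Sym2.mem_mk_right c d)
          simp only [Subtype.mk.injEq, Sym2.map_mk, dif_pos ha, dif_pos hb, dif_pos hc,
            dif_pos hd, Sym2.eq_iff, ← Subtype.ext_iff] at h
          rcases h with ⟨h1, h2⟩ | ⟨h1, h2⟩
          · have e1 : a = c := congrArg Subtype.val (e.injective h1)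
            have e2 : b = d := congrArg Subtype.val (e.injective h2)
            rw [e1, e2]
          · have e1 : a = d := congrArg Subtype.val (e.injective h1)
            have e2 : b = c := congrArg Subtype.val (e.injective h2)
            rw [e1, e2, Sym2.eq_swap]
    · obtain ⟨w, hwd⟩ := w
      have hw' : w ∈ B.edgeSet := (mem_filter.1 hw).2
      induction w using Sym2.ind with
      | h c d =>
        have hcd : B.Adj c d := hw'
        obtain ⟨⟨a, ha⟩, hea⟩ := e.surjective ⟨c, B.edge_vert hcd⟩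
        obtain ⟨⟨b, hb⟩, heb⟩ := e.surjective ⟨d, B.edge_vert hcd.symm⟩
        have ha' : a ∈ A := ha
        have hb' : b ∈ A := hb
        have hab : s(a, b) ∈ E := by
          have : B.coe.Adj (e ⟨a, ha⟩) (e ⟨b, hb⟩) := by rw [hea, heb]; exact hcd
          exact e.map_rel_iff.1 this
        refine ⟨s(a, b), hab, Subtype.ext ?_⟩
        simp only [Sym2.map_mk, dif_pos ha', dif_pos hb']
        rw [hea, heb]
  rw [← hcard, ← Ex_all q EB]
  refine Ex_congr fun x => ?_
  split_ifs with h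
  · symm
    refine (prod_eq_one fun z hz => if_pos ?_).symm.symm
    obtain ⟨_, hx⟩ := h z.1 (mem_filter.1 hz).2
    exact hx
  · simp only [not_forall] at h
    obtain ⟨z, hz, hzx⟩ := h
    have hnd : ¬ z.IsDiag := SimpleGraph.not_isDiag_of_mem_edgeSet _ (B.edgeSet_subset hz)
    symm
    exact prod_eq_zero (mem_filter.2 ⟨mem_univ (⟨z, hnd⟩ : Pair n), hz⟩)
      (if_neg fun hx => hzx ⟨hnd, hx⟩)

open scoped Classical in
/-- Every copy in the complete graph of a subgraph of `H` is the image of a placement. -/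
lemma inst_le_image (hv : v ≤ n) (H : SimpleGraph (Fin v))
    (A : Finset (Fin v)) (E : Finset (Sym2 (Fin v))) (hE : ∀ e ∈ E, e ∈ H.edgeSet)
    (hA : ∀ e ∈ E, ∀ a ∈ e, a ∈ A) :
    (univ.filter (fun B : (⊤ : SimpleGraph (Fin n)).Subgraph =>
        Nonempty ((mkSub H A E hE hA).coe ≃g B.coe))).card ≤
      ((univ : Finset (Fin v ↪ Fin n)).image
        fun π : Fin v ↪ Fin n => (A.image π, E.image (Sym2.map π))).card := by
  refine card_le_card_of_injOn (fun B => (B.verts.toFinset, B.edgeSet.toFinset))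
    (fun B hB => ?_) fun B _ B' _ h => ?_
  · obtain ⟨e⟩ := (mem_filter.1 hB).2
    set ι : Fin v ↪ Fin n := Fin.castLEEmb hv
    let f : A ↪ Fin n := ⟨fun a => (e ⟨a.1, a.2⟩).1, fun a b h =>
      Subtype.ext (congrArg Subtype.val (e.injective (Subtype.ext h)) :)⟩
    obtain ⟨π, hπ⟩ : ∃ π : Fin v ↪ Fin n, ∀ a : A, π a.1 = f a := by
      let g : A ↪ Fin n := (Function.Embedding.subtype _).trans ι
      let eqv : {x // x ∈ Set.range g} ≃ {x // x ∈ Set.range f} :=
        (Equiv.ofInjective g g.injective).symm.trans (Equiv.ofInjective f f.injective)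
      refine ⟨ι.trans eqv.extendSubtype.toEmbedding, fun a => ?_⟩
      have : eqv.extendSubtype (g a) = f a := by
        rw [Equiv.extendSubtype_apply_of_mem eqv (g a) ⟨a, rfl⟩]
        simp [eqv, Equiv.ofInjective_symm_apply]
      exact this
    refine mem_image.2 ⟨π, mem_univ _, Prod.ext ?_ ?_⟩
    · ext c
      simp only [mem_image, Set.mem_toFinset]
      constructor
      · rintro ⟨a, ha, rfl⟩
        rw [show π a = f ⟨a, ha⟩ from hπ ⟨a, ha⟩]
        exact (e ⟨a, ha⟩).2
      · intro hc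
        obtain ⟨⟨a, ha⟩, hea⟩ := e.surjective ⟨c, hc⟩
        exact ⟨a, ha, by rw [show π a = f ⟨a, ha⟩ from hπ ⟨a, ha⟩]; exact congrArg Subtype.val hea⟩
    · ext z
      simp only [mem_image, Set.mem_toFinset]
      constructor
      · rintro ⟨w, hw, rfl⟩
        induction w using Sym2.ind with
        | h a b =>
          have ha := hA _ hw a (Sym2.mem_mk_left a b)
          have hb := hA _ hw b (Sym2.mem_mk_right a b)
          rw [Sym2.map_mk, show π a = f ⟨a, ha⟩ from hπ ⟨a, ha⟩,
            show π b = f ⟨b, hb⟩ from hπ ⟨b, hb⟩, SimpleGraph.Subgraph.mem_edgeSet]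
          exact e.map_rel_iff.2 (show (mkSub H A E hE hA).coe.Adj ⟨a, ha⟩ ⟨b, hb⟩ from hw)
      · intro hz
        induction z using Sym2.ind with
        | h c d =>
          have hcd : B.Adj c d := hz
          obtain ⟨⟨a, ha⟩, hea⟩ := e.surjective ⟨c, B.edge_vert hcd⟩
          obtain ⟨⟨b, hb⟩, heb⟩ := e.surjective ⟨d, B.edge_vert hcd.symm⟩
          have hab : s(a, b) ∈ E := by
            have : B.coe.Adj (e ⟨a, ha⟩) (e ⟨b, hb⟩) := by rw [hea, heb]; exact hcd
            exact e.map_rel_iff.1 this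
          refine ⟨s(a, b), hab, ?_⟩
          rw [Sym2.map_mk, show π a = f ⟨a, ha⟩ from hπ ⟨a, ha⟩,
            show π b = f ⟨b, hb⟩ from hπ ⟨b, hb⟩]
          congr 2
          · exact congrArg Subtype.val hea
          · exact congrArg Subtype.val heb
  · simp only [Prod.mk.injEq, Set.toFinset_inj] at h
    refine SimpleGraph.Subgraph.ext h.1 (funext fun c => funext fun d => propext ?_)
    rw [← SimpleGraph.Subgraph.mem_edgeSet, h.2, SimpleGraph.Subgraph.mem_edgeSet]

open scoped Classical in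
/-- A frame from a graph of bounded width at its expectation threshold. -/
theorem frame_of {k : ℕ} {q : ℝ} (hn : 2 ≤ n) (hv : v ≤ n) (hq : 0 < q)
    (hqk : ((k : ℝ) + 1) * q ≤ 1) (H : SimpleGraph (Fin v)) [DecidableRel H.Adj]
    (hyp : ∀ F : H.Subgraph, 1 / 2 ≤ expCopies n q F.coe) (hk : TreewidthLE k H) (v0 : Fin v) :
    ∃ C : Frame (Fin v), C.Valid ∧ C.k = k ∧ C.n = n ∧ C.q = q ∧ C.EH = H.edgeFinset
      ∧ C.v0 = v0 := by
  obtain ⟨G, ord, hinj, hHG, hG⟩ := hk
  have hq1 : q ≤ 1 := le_trans (le_mul_of_one_le_left hq.le (by linarith [(k.cast_nonneg : (0 : ℝ) ≤ k)])) hqk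
  refine ⟨⟨k, n, q, H.edgeFinset, v0, ord, fun z => univ.filter fun a => G.Adj a z ∧ ord a < ord z⟩,
    ⟨hn, by simpa using hv, hq, hqk, hinj, fun a z h => (mem_filter.1 h).2.2, fun z => ?_,
      fun a b z ha hb hab => ?_, fun a b h hab => ?_, fun e he => ?_, fun A E hE hA => ?_⟩,
    rfl, rfl, rfl, rfl, rfl⟩
  · have h := (hG z).1
    rwa [Set.ncard_eq_toFinset_card', Set.toFinset_setOf] at h
  · obtain ⟨ha1, ha2⟩ := (mem_filter.1 ha).2
    obtain ⟨hb1, hb2⟩ := (mem_filter.1 hb).2
    exact mem_filter.2 ⟨mem_univ _,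
      (hG z).2 a b ha1 ha2 hb1 hb2 (fun h => by rw [h] at hab; exact lt_irrefl _ hab), hab⟩
  · exact mem_filter.2 ⟨mem_univ _, hHG (SimpleGraph.mem_edgeFinset.1 h), hab⟩
  · exact H.not_isDiag_of_mem_edgeSet (SimpleGraph.mem_edgeFinset.1 he)
  · have hE' : ∀ e ∈ E, e ∈ H.edgeSet := fun e he => SimpleGraph.mem_edgeFinset.1 (hE he)
    refine (hyp (mkSub H A E hE' hA)).trans ((exp_le_inst hq.le hq1 H A E hE' hA).trans ?_)
    refine mul_le_mul_of_nonneg_right ?_ (pow_nonneg hq.le _)
    convert (Nat.cast_le (α := ℝ)).2 (inst_le_image hv H A E hE' hA) using 3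

open scoped Classical in
/-- Random copies are spread, given an embedding bound. -/
lemma spread_of_emb {q L : ℝ} (hv : v ≤ n) (hq : 0 < q) (hL : 0 < L)
    (H : SimpleGraph (Fin v)) (v0 : Fin v)
    (hemb0 : ∀ (X : Finset (Fin n)) (DF : Finset (Sym2 (Fin n))), IsPattern X DF →
      ((embs v0 H.edgeFinset X DF).card : ℝ) ≤ (n : ℝ) ^ X.card * (L * q) ^ DF.card) :
    IsSpread (univ : Finset (Fin v ↪ Fin n)) (copyEdges H)
      (1 / (Real.exp 1 ^ 2 * (L * q))) := by
  intro S hS
  set DF := S.map (Function.Embedding.subtype _) with hDF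
  set X := univ.filter (fun a : Fin n => ∃ e ∈ DF, a ∈ e) with hX
  have hpat : IsPattern X DF :=
    ⟨fun e he => by obtain ⟨z, -, rfl⟩ := mem_map.1 he; exact z.2,
      fun e he a ha => mem_filter.2 ⟨mem_univ a, e, he, ha⟩,
      fun a ha => (mem_filter.1 ha).2⟩
  have hemb := hemb0 X DF hpat
  have hDcard : DF.card = S.card := card_map _
  rw [hDcard] at hemb
  set good := (univ : Finset (Fin v ↪ Fin n)).filter fun π => S ⊆ copyEdges H π with hgood
  set back := fun (π : Fin v ↪ Fin n) (a : Fin n) =>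
    if a ∈ X then (if h : ∃ w, π w = a then h.choose else v0) else v0 with hback
  have hpre : ∀ π ∈ good, ∀ a ∈ X, π (back π a) = a := by
    intro π hπ a ha
    obtain ⟨e, he, hae⟩ := (mem_filter.1 ha).2
    obtain ⟨z, hz, rfl⟩ := mem_map.1 he
    obtain ⟨w, -, hw⟩ := (mem_filter.1 ((mem_filter.1 hπ).2 hz)).2
    have hae' : a ∈ w.map π := hw ▸ hae
    obtain ⟨b, -, rfl⟩ := Sym2.mem_map.1 hae'
    have hex : ∃ w', π w' = π b := ⟨b, rfl⟩
    simp only [hback, ha, if_true, dif_pos hex]
    exact hex.choose_spec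
  have himg : good.image back ⊆ embs v0 H.edgeFinset X DF := by
    intro f hf
    obtain ⟨π, hπ, rfl⟩ := mem_image.1 hf
    refine mem_embs.2 ⟨fun a ha => if_neg ha, fun a ha b hb hab => ?_, fun e he => ?_⟩
    · rw [← hpre π hπ a ha, ← hpre π hπ b hb, hab]
    · have heD := he
      have heX : ∀ a ∈ e, a ∈ X := hpat.sub e he
      obtain ⟨z, hz, rfl⟩ := mem_map.1 heD
      obtain ⟨w, hwH, hw⟩ := (mem_filter.1 ((mem_filter.1 hπ).2 hz)).2
      rw [SimpleGraph.mem_edgeFinset]
      convert hwH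
      refine Sym2.map.injective π.injective ?_
      rw [Sym2.map_map, hw]
      calc Sym2.map (⇑π ∘ back π) z.1 = Sym2.map id z.1 :=
            Sym2.map_congr fun a ha => hpre π hπ a (heX a ha)
        _ = z.1 := Sym2.map_id' ▸ rfl
  have hxv : X.card ≤ v ∨ good = ∅ := by
    rcases good.eq_empty_or_nonempty with h | ⟨π, hπ⟩
    · exact Or.inr h
    · left
      calc X.card ≤ (univ : Finset (Fin v)).card :=
            card_le_card_of_injOn (back π) (fun _ _ => mem_univ _) fun a ha b hb h => by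
              rw [← hpre π hπ a ha, ← hpre π hπ b hb, h]
        _ = v := by simp
  have hLq : 0 < L * q := mul_pos hL hq
  rw [one_div_pow, mul_one_div, div_le_iff₀ (by positivity)]
  change (good.card : ℝ) ≤ _
  rcases hxv with hxv | h0
  swap
  · rw [h0, card_empty, Nat.cast_zero]; positivity
  have hfib : ∀ f ∈ good.image back, (good.filter fun π => back π = f).card
      ≤ (n - X.card).descFactorial (v - X.card) := by
    intro f hf
    obtain ⟨π0, hπ0, rfl⟩ := mem_image.1 hf
    set K := X.image (back π0) with hK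
    have hKcard : K.card = X.card := card_image_of_injOn fun a ha b hb h => by
      rw [← hpre π0 hπ0 a ha, ← hpre π0 hπ0 b hb, h]
    have hfix : ∀ π ∈ good.filter (fun π => back π = back π0), ∀ w ∈ K, π w = π0 w := by
      intro π hπ w hw
      obtain ⟨hπg, hπb⟩ := mem_filter.1 hπ
      obtain ⟨a, ha, rfl⟩ := mem_image.1 hw
      rw [hpre π0 hπ0 a ha, ← hπb, hpre π hπg a ha]
    have hout : ∀ π ∈ good.filter (fun π => back π = back π0), ∀ w, w ∉ K → π w ∉ X := by
      intro π hπ w hw hX'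
      obtain ⟨hπg, hπb⟩ := mem_filter.1 hπ
      refine hw (mem_image.2 ⟨π w, hX', ?_⟩)
      rw [← hπb]
      exact π.injective (hpre π hπg (π w) hX')
    calc (good.filter fun π => back π = back π0).card
        ≤ ((univ : Finset ({w // w ∉ K} ↪ {a // a ∉ X}))).card := by
          let F : {π // π ∈ good.filter (fun π => back π = back π0)} →
              ({w // w ∉ K} ↪ {a // a ∉ X}) := fun π =>
            ⟨fun w => ⟨π.1 w.1, hout π.1 π.2 w.1 w.2⟩, fun a b h =>
              Subtype.ext (π.1.injective (congrArg Subtype.val h))⟩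
          rw [← card_attach]
          refine card_le_card_of_injOn F (fun _ _ => mem_univ _) fun π _ π' _ h => ?_
          refine Subtype.ext (Function.Embedding.ext fun w => ?_)
          by_cases hw : w ∈ K
          · rw [hfix π.1 π.2 w hw, hfix π'.1 π'.2 w hw]
          · exact congrArg Subtype.val (DFunLike.congr_fun h (⟨w, hw⟩ : {w // w ∉ K}))
      _ = _ := by
          rw [card_univ, Fintype.card_embedding_eq, Fintype.card_subtype_compl,
            Fintype.card_subtype_compl, Fintype.card_coe, Fintype.card_coe, hKcard,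
            Fintype.card_fin, Fintype.card_fin]
  have hgoodcard : good.card ≤ (embs v0 H.edgeFinset X DF).card * (n - X.card).descFactorial (v - X.card) := by
    calc good.card ≤ (n - X.card).descFactorial (v - X.card) * (good.image back).card :=
          card_le_mul_card_image good _ hfib
      _ ≤ _ := by rw [mul_comm]; exact Nat.mul_le_mul_right _ (card_le_card himg)
  have hX2 : X.card ≤ 2 * S.card := by
    calc X.card ≤ (DF.biUnion fun e => e.toFinset).card := card_le_card fun a ha => by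
          obtain ⟨e, he, hae⟩ := (mem_filter.1 ha).2
          exact mem_biUnion.2 ⟨e, he, Sym2.mem_toFinset.2 hae⟩
      _ ≤ DF.card * 2 := card_biUnion_le.trans (by
          rw [← smul_eq_mul, ← sum_const]
          exact sum_le_sum fun e _ => by rw [Sym2.card_toFinset]; split_ifs <;> omega)
      _ = _ := by rw [hDcard, mul_comm]
  have hexp : Real.exp X.card ≤ (Real.exp 1 ^ 2) ^ S.card := by
    rw [← pow_mul, ← Real.exp_nat_mul, mul_one, Real.exp_le_exp]
    exact_mod_cast hX2
  have hdf : (n.descFactorial v : ℝ)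
      = (n.descFactorial X.card : ℝ) * ((n - X.card).descFactorial (v - X.card) : ℝ) := by
    have h1 := Nat.factorial_mul_descFactorial hv
    have h2 := Nat.factorial_mul_descFactorial (hxv.trans hv)
    have h3 := Nat.factorial_mul_descFactorial (show v - X.card ≤ n - X.card by omega)
    rw [show n - X.card - (v - X.card) = n - v by omega] at h3
    have h4 : (n - v).factorial * (n.descFactorial X.card
        * (n - X.card).descFactorial (v - X.card)) = (n - v).factorial * n.descFactorial v := by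
      rw [h1, mul_left_comm, h3, mul_comm, h2]
    exact_mod_cast (Nat.eq_of_mul_eq_mul_left (Nat.factorial_pos _) h4).symm
  calc (good.card : ℝ)
      ≤ ((embs v0 H.edgeFinset X DF).card : ℝ) * ((n - X.card).descFactorial (v - X.card) : ℝ) := by
        exact_mod_cast hgoodcard
    _ ≤ (n : ℝ) ^ X.card * (L * q) ^ S.card
          * ((n - X.card).descFactorial (v - X.card) : ℝ) := by gcongr
    _ ≤ (Real.exp X.card * n.descFactorial X.card) * (L * q) ^ S.card
          * ((n - X.card).descFactorial (v - X.card) : ℝ) := by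
        gcongr
        exact pow_le_exp_mul_desc n X.card (hxv.trans hv)
    _ ≤ ((Real.exp 1 ^ 2) ^ S.card * n.descFactorial X.card) * (L * q) ^ S.card
          * ((n - X.card).descFactorial (v - X.card) : ℝ) := by gcongr
    _ = _ := by
        rw [Fintype.card_embedding_eq, Fintype.card_fin, Fintype.card_fin, hdf, mul_pow]
        ring

open scoped Classical in
/-- The embedding bound gives the containment threshold. -/
lemma pc_of_emb : ∃ M : ℝ, 0 ≤ M ∧ ∀ (n v : ℕ), 2 ≤ n → v ≤ n →
    ∀ H : SimpleGraph (Fin v), H ≠ ⊥ → ∀ l : ℝ, 1 ≤ l →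
    (l * pE n H ≤ 1 → ∀ (v0 : Fin v) (X : Finset (Fin n)) (DF : Finset (Sym2 (Fin n))),
      IsPattern X DF →
      ((embs v0 H.edgeFinset X DF).card : ℝ) ≤ (n : ℝ) ^ X.card * (l * pE n H) ^ DF.card) →
    pc n H ≤ M * l * pE n H * Real.log n := by
  refine ⟨12 * Real.exp 1 ^ 2 * 10, by positivity, fun n v hn hv H he l hl1 hemb => ?_⟩
  obtain ⟨⟨hq0, hq1⟩, hyp⟩ := pE_spec hv H
  have hqpos := pE_pos hn hv H he
  set q := pE n H with hq
  set L := Real.log n with hL
  have hn2 : (2 : ℝ) ≤ n := by exact_mod_cast hn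
  have hL2 : Real.log 2 ≤ L := Real.log_le_log two_pos hn2
  have hl2 : (1 : ℝ) / 2 < Real.log 2 := by linarith [Real.log_two_gt_d9]
  set p := 12 * (Real.exp 1 ^ 2 * (l * q)) with hp
  set k := Nat.log 2 (n ^ 2) + 1 with hk
  have hkL : (k : ℝ) ≤ 10 * L := by
    have h1 : ((Nat.log 2 (n ^ 2) : ℕ) : ℝ) * Real.log 2 ≤ 2 * L := by
      have h := Nat.pow_log_le_self 2 (x := n ^ 2) (by positivity)
      have h' : ((2 : ℝ) ^ Nat.log 2 (n ^ 2)) ≤ (n : ℝ) ^ 2 := by exact_mod_cast h
      have := Real.log_le_log (by positivity) h'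
      rw [Real.log_pow, Real.log_pow] at this
      exact_mod_cast this
    rw [hk]
    push_cast
    nlinarith [(Nat.log 2 (n ^ 2)).cast_nonneg (α := ℝ)]
  have hk1 : (1 : ℝ) ≤ k := by rw [hk]; push_cast; linarith [(Nat.log 2 (n ^ 2)).cast_nonneg (α := ℝ)]
  have hlpos : 0 < l := by linarith
  have hbudget : (k : ℝ) * p ≤ 12 * Real.exp 1 ^ 2 * 10 * l * q * L := by
    calc (k : ℝ) * p ≤ (10 * L) * p := mul_le_mul_of_nonneg_right hkL (by rw [hp]; positivity)
      _ = _ := by rw [hp]; ring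
  have hbdd : BddBelow {p : ℝ | p ∈ Set.Icc 0 1 ∧ 1 / 2 ≤ containProb n p H} :=
    ⟨0, fun p hp => hp.1.1⟩
  by_cases hp1 : p ≤ 1
  swap
  · refine le_trans (csInf_le hbdd ⟨⟨zero_le_one, le_rfl⟩, ?_⟩) (le_trans ?_ hbudget)
    · rw [containProb_one hv H]; norm_num
    · nlinarith [not_le.1 hp1]
  have hqe : Real.exp 1 * q ≤ 1 := by
    have h1 : 1 ≤ l := hl1
    have h2 : Real.exp 1 ≤ 12 * Real.exp 1 ^ 2 * l := by
      have : (1 : ℝ) ≤ Real.exp 1 := Real.one_le_exp zero_le_one
      have := one_le_mul_of_one_le_of_one_le this h1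
      nlinarith
    calc Real.exp 1 * q ≤ 12 * Real.exp 1 ^ 2 * l * q := mul_le_mul_of_nonneg_right h2 hq0
      _ = p := by rw [hp]; ring
      _ ≤ 1 := hp1
  obtain ⟨e0, he0⟩ := SimpleGraph.edgeSet_nonempty.2 he
  have hlq1 : l * q ≤ 1 := by
    refine le_trans ?_ hp1
    rw [hp]
    have h1 : (1 : ℝ) ≤ Real.exp 1 := Real.one_le_exp zero_le_one
    nlinarith [mul_pos hlpos hqpos, one_le_mul_of_one_le_of_one_le h1 h1]
  have hspread := spread_of_emb hv hqpos hlpos H e0.out.1 (hemb hlq1 e0.out.1)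
  have : Nonempty (Fin v ↪ Fin n) := ⟨Fin.castLEEmb hv⟩
  have hppos : 0 < p := by positivity
  have hsize : ∀ π : Fin v ↪ Fin n, (copyEdges H π).card < 2 ^ k := by
    intro π
    refine lt_of_le_of_lt (card_le_univ _) ?_
    rw [Sym2.card_subtype_not_diag, Fintype.card_fin]
    refine lt_of_le_of_lt ?_ (Nat.lt_pow_succ_log_self one_lt_two (n ^ 2))
    exact (Nat.choose_le_pow n 2)
  have hhit := spread_hit (R := 1 / (Real.exp 1 ^ 2 * (l * q))) hppos hp1 (by positivity)
    (le_of_eq (by rw [hp]; field_simp)) (copyEdges H) k hsize hspread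
  have hb := bias_le hp1 k
  have hb01 : bias p k ∈ Set.Icc (0 : ℝ) 1 := by
    have h1 : 0 ≤ (1 - p) ^ k := pow_nonneg (by linarith) k
    have h2 : (1 - p) ^ k ≤ 1 := pow_le_one₀ (by linarith) (by linarith)
    constructor <;> simp only [bias] <;> linarith
  refine le_trans (csInf_le hbdd ⟨hb01, ?_⟩) (hb.trans hbudget)
  refine hhit.trans ((Ex_mono (g := fun x => if H.IsContained (toGraph x) then (1 : ℝ) else 0)
    hb01.1 hb01.2 fun x => ?_).trans (le_of_eq ?_))
  · split_ifs with h1 h2 <;> try norm_num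
    obtain ⟨π, hπ⟩ := h1
    exact h2 (contained_of_copy H π x hπ)
  · rw [← sum_graph_eq _ fun G => if H.IsContained G then (1 : ℝ) else 0]
    exact sum_congr rfl fun G _ => by rw [mul_ite, mul_one, mul_zero]

open scoped Classical in
/-- The embedding bound gives the modified expectation threshold. -/
lemma pETilde_of_emb : ∃ M : ℝ, 0 ≤ M ∧ ∀ (n v : ℕ), 2 ≤ n → v ≤ n →
    ∀ H : SimpleGraph (Fin v), H ≠ ⊥ → ∀ l : ℝ, 1 ≤ l →
    (l * pE n H ≤ 1 → ∀ (v0 : Fin v) (X : Finset (Fin n)) (DF : Finset (Sym2 (Fin n))),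
      IsPattern X DF →
      ((embs v0 H.edgeFinset X DF).card : ℝ) ≤ (n : ℝ) ^ X.card * (l * pE n H) ^ DF.card) →
    pETilde n H ≤ M * l * pE n H := by
  refine ⟨Real.exp 1 ^ 2, by positivity, fun n v hn hv H he l hl1 hemb => ?_⟩
  obtain ⟨⟨hq0, hq1⟩, hyp⟩ := pE_spec hv H
  have hqpos := pE_pos hn hv H he
  set q := pE n H with hq
  have hn2 : (2 : ℝ) ≤ n := by exact_mod_cast hn
  have hL : (1 : ℝ) / 2 < Real.log n := by
    linarith [Real.log_two_gt_d9, Real.log_le_log two_pos hn2]
  set p := Real.exp 1 ^ 2 * (l * q) with hp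
  have hbudget : p ≤ Real.exp 1 ^ 2 * l * q := le_of_eq (by rw [hp]; ring)
  have hbdd : BddBelow {p : ℝ | p ∈ Set.Icc 0 1 ∧
      ∀ F : H.Subgraph, (H.copyCount F.coe : ℝ) / 2 ≤ expCopies n p F.coe} :=
    ⟨0, fun p hp => hp.1.1⟩
  have : Nonempty (Fin v ↪ Fin n) := ⟨Fin.castLEEmb hv⟩
  have hplace : ∀ (F : H.Subgraph) (r : ℝ), 0 ≤ r → r ≤ 1 → ∀ T : Finset (Fin v ↪ Fin n), T.Nonempty →
      (∀ S : Finset (Pair n), ((T.filter fun π => S ⊆ copyEdges H π).card : ℝ) ≤ r ^ S.card * T.card) →
      (H.copyCount F.coe : ℝ) / 2 ≤ expCopies n r F.coe := by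
    intro F r hr0 hr1 T hT hS
    have h := copyCount_place H F.coe T
    have h' : (H.copyCount F.coe : ℝ) * T.card ≤ expCopies n r F.coe * T.card := by
      refine le_trans (by exact_mod_cast h) (le_trans (sum_le_sum fun B _ => hS _) ?_)
      rw [← sum_mul]
      exact mul_le_mul_of_nonneg_right (expCopies_ge hr0 hr1 F.coe) (Nat.cast_nonneg _)
    have := le_of_mul_le_mul_right h' (Nat.cast_pos.2 hT.card_pos)
    linarith [(H.copyCount F.coe).cast_nonneg (α := ℝ)]
  by_cases hp1 : p ≤ 1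
  · refine (csInf_le hbdd ⟨⟨by positivity, hp1⟩, fun F => ?_⟩).trans hbudget
    refine hplace F p (by positivity) hp1 univ univ_nonempty fun S => ?_
    rcases S.eq_empty_or_nonempty with rfl | hS
    · simp
    obtain ⟨e0, he0⟩ := SimpleGraph.edgeSet_nonempty.2 he
    have hlpos : 0 < l := by linarith
    have hlq1 : l * q ≤ 1 := by
      refine le_trans ?_ hp1
      rw [hp]
      have h1 : (1 : ℝ) ≤ Real.exp 1 := Real.one_le_exp zero_le_one
      nlinarith [mul_pos hlpos hqpos, one_le_mul_of_one_le_of_one_le h1 h1]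
    have hs := spread_of_emb hv hqpos hlpos H e0.out.1 (hemb hlq1 e0.out.1) S hS
    have hlq : 0 < Real.exp 1 ^ 2 * (l * q) := by positivity
    rw [one_div_pow, mul_one_div, div_le_iff₀ (pow_pos hlq _)] at hs
    rw [card_univ]
    refine hs.trans (le_of_eq ?_)
    rw [hp, mul_comm]
  · refine le_trans (csInf_le hbdd ⟨⟨zero_le_one, le_rfl⟩, fun F => ?_⟩) (le_trans (not_le.1 hp1).le hbudget)
    exact hplace F 1 zero_le_one le_rfl univ univ_nonempty fun S => by
      rw [one_pow, one_mul]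
      exact Nat.cast_le.2 (card_filter_le _ _)

open scoped Classical in
/-- An embedding bound with loss `L` gives both thresholds within `L`. -/
theorem thresholds_of_emb : ∃ M : ℝ, 0 ≤ M ∧ ∀ (n v : ℕ), 2 ≤ n → v ≤ n →
    ∀ H : SimpleGraph (Fin v), H ≠ ⊥ → ∀ L : ℝ, 1 ≤ L →
    (L * pE n H ≤ 1 → ∀ (v0 : Fin v) (X : Finset (Fin n)) (DF : Finset (Sym2 (Fin n))),
      IsPattern X DF →
      ((embs v0 H.edgeFinset X DF).card : ℝ) ≤ (n : ℝ) ^ X.card * (L * pE n H) ^ DF.card) →
    pc n H ≤ M * L * pE n H * Real.log n ∧ pETilde n H ≤ M * L * pE n H := by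
  obtain ⟨M₁, h₁, hpc⟩ := pc_of_emb
  obtain ⟨M₂, h₂, hpe⟩ := pETilde_of_emb
  refine ⟨M₁ + M₂, by linarith, fun n v hn hv H he L hL hemb => ?_⟩
  have hq := (pE_spec hv H).1.1
  have hlog : 0 ≤ Real.log n := Real.log_nonneg (by exact_mod_cast le_trans one_le_two hn)
  constructor
  · refine (hpc n v hn hv H he L hL hemb).trans ?_
    gcongr
    linarith
  · refine (hpe n v hn hv H he L hL hemb).trans ?_
    gcongr
    linarith

end Vale.Agent.P064.Tw
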