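import Vale.Agent.P064.Tw.Base

/-! The numerical recursion behind the covers of rich vertices. -/

namespace Vale.Agent.P064.Tw

open Finset
open scoped Classical

/-- The numerical parameters of the recursion. -/
structure Prof where
  /-- The width. -/
  k : ℕ
  /-- The number of ambient vertices. -/
  n : ℕ
  /-- The number of host vertices. -/
  v : ℕ
  /-- The density. -/
  q : ℝ
  /-- The dyadic levels in use. -/
  I : Finset ℤ

variable (P : Prof)

/-- The upper end of a dyadic level. -/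
noncomputable def Prof.γ (j : ℤ) : ℝ := (2 : ℝ) ^ (j + 1)

/-- The loss per vertex. -/
noncomputable def Prof.K0 : ℝ := 4000 * ((P.k : ℝ) + 1)

/-- The count above which a level is recorded. -/
noncomputable def Prof.thr (Q : ℤ → ℝ) (j : ℤ) : ℝ := 8 * Q j + max 0 (-(j : ℝ))

/-- Recorded profiles. -/
def Prof.Good (Q : ℤ → ℝ) (a : P.I → ℕ) : Prop := ∀ j, a j = 0 ∨ Prof.thr Q j < a j

/-- The bound for tuples of distinct children with a given profile. -/
noncomputable def Prof.Val : ℕ → (P.I → ℕ) → ℝ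
  | 0, _ => 1
  | c + 1, a => 24 * Prof.Val c a
      + ∑ j : P.I, Prof.γ j * a j * Prof.Val c (Function.update a j (a j - 1))

/-- All profiles. -/
noncomputable def Prof.box : Finset (P.I → ℕ) := Fintype.piFinset fun _ => range (P.v + 1)

/-- The value of a vertex with `s` available edges and profile `a`. -/
noncomputable def Prof.value (s : ℕ) (a : P.I → ℕ) : ℝ :=
  1 / (P.n * P.K0) * (1 + 1 / (((P.k : ℝ) + 1) * P.q)) ^ s
    * ∑ c ∈ range (P.v + 1), P.Val c a / P.K0 ^ c

/-- The weight of a profile. -/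
noncomputable def Prof.prob (Q : ℤ → ℝ) (a : P.I → ℕ) : ℝ :=
  ∏ j : P.I, Q j ^ a j / (a j).factorial

/-- The profiles reaching level `J`. -/
noncomputable def Prof.reach (Q : ℤ → ℝ) (s : ℕ) (J : ℤ) : Finset (P.I → ℕ) :=
  P.box.filter fun a => P.Good Q a ∧ (2 : ℝ) ^ J ≤ P.value s a

/-- One step of the recursion. -/
noncomputable def Prof.step (Q : ℤ → ℝ) (J : ℤ) : ℝ :=
  ∑ _col : Fin (P.k + 1), ∑ av : Finset (Fin (P.k + 1)),
    ∑ a ∈ P.reach Q av.card J, P.n * P.q ^ av.card * P.prob Q a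

/-- The weights of the covers. -/
noncomputable def Prof.Qseq : ℕ → ℤ → ℝ
  | 0, _ => 0
  | m + 1, J => P.step (Prof.Qseq m) J

/-- The majorant of the weight of one level. -/
noncomputable def Prof.mu (Q : ℤ → ℝ) (j : ℤ) (a : ℕ) : ℝ :=
  if a = 0 then 1 else Real.exp (a - Prof.thr Q j) * (Q j ^ a / a.factorial)

variable {P}

lemma Prof.γ_pos (j : ℤ) : 0 < Prof.γ j := zpow_pos two_pos _

lemma Prof.K0_ge : (2000 : ℝ) ≤ P.K0 := by
  unfold Prof.K0; nlinarith [(P.k.cast_nonneg : (0 : ℝ) ≤ P.k)]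

lemma Prof.K0_pos : 0 < P.K0 := lt_of_lt_of_le (by norm_num) Prof.K0_ge

lemma Prof.thr_nonneg {Q : ℤ → ℝ} (hQ : ∀ j, 0 ≤ Q j) (j : ℤ) : 0 ≤ Prof.thr Q j :=
  add_nonneg (mul_nonneg (by norm_num) (hQ j)) (le_max_left _ _)

lemma Prof.Val_nonneg : ∀ (c : ℕ) (a : P.I → ℕ), 0 ≤ P.Val c a
  | 0, _ => by simp [Prof.Val]
  | c + 1, a => by
    rw [Prof.Val]
    exact add_nonneg (mul_nonneg (by norm_num) (Prof.Val_nonneg c a)) (sum_nonneg fun j _ =>
      mul_nonneg (mul_nonneg (Prof.γ_pos _).le (Nat.cast_nonneg _)) (Prof.Val_nonneg c _))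

lemma Prof.value_nonneg (hq : 0 < P.q) (s : ℕ) (a : P.I → ℕ) : 0 ≤ P.value s a := by
  have := Prof.K0_pos (P := P)
  refine mul_nonneg (mul_nonneg (by positivity) (by positivity)) (sum_nonneg fun c _ => ?_)
  exact div_nonneg (Prof.Val_nonneg c a) (by positivity)

lemma Prof.Qseq_nonneg (hq : 0 < P.q) : ∀ (m : ℕ) (J : ℤ), 0 ≤ P.Qseq m J
  | 0, _ => le_rfl
  | m + 1, J => by
    have ih := Prof.Qseq_nonneg hq m
    change 0 ≤ P.step (P.Qseq m) J
    unfold Prof.step Prof.prob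
    exact sum_nonneg fun _ _ => sum_nonneg fun _ _ => sum_nonneg fun _ _ =>
      mul_nonneg (by positivity) (prod_nonneg fun j _ =>
        div_nonneg (pow_nonneg (ih j) _) (Nat.cast_nonneg _))

lemma sum_zpow_le (s : Finset ℤ) (L : ℤ) (h : ∀ j ∈ s, j ≤ L) :
    ∑ j ∈ s, (2 : ℝ) ^ j ≤ 2 * (2 : ℝ) ^ L := by
  have hinj : Set.InjOn (fun j : ℤ => (L - j).toNat) s := by
    intro a ha b hb hab
    have := h a ha
    have := h b hb
    simp only at hab
    omega
  calc ∑ j ∈ s, (2 : ℝ) ^ j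
      = ∑ i ∈ s.image (fun j : ℤ => (L - j).toNat), (2 : ℝ) ^ L * (1 / 2) ^ i := by
        rw [sum_image hinj]
        refine sum_congr rfl fun j hj => ?_
        have hj' : ((L - j).toNat : ℤ) = L - j := Int.toNat_of_nonneg (by linarith [h j hj])
        rw [one_div, inv_pow, ← zpow_natCast (2 : ℝ), hj', ← zpow_neg, ← zpow_add₀ two_ne_zero]
        congr 1
        ring
    _ ≤ ∑ i ∈ range ((s.image (fun j : ℤ => (L - j).toNat)).sup id + 1),
          (2 : ℝ) ^ L * (1 / 2) ^ i := by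
        refine sum_le_sum_of_subset_of_nonneg (fun i hi => mem_range.2 ?_)
          (fun _ _ _ => by positivity)
        exact Nat.lt_succ_of_le (le_sup (f := id) hi)
    _ = (2 : ℝ) ^ L * ∑ i ∈ range ((s.image (fun j : ℤ => (L - j).toNat)).sup id + 1),
          (1 / 2 : ℝ) ^ i := by rw [mul_sum]
    _ ≤ (2 : ℝ) ^ L * 2 := by
        gcongr
        exact sum_geometric_two_le _
    _ = _ := by ring

lemma sum_γ_below (s : Finset ℤ) {x : ℝ} (hx : 0 ≤ x) (h : ∀ j ∈ s, (2 : ℝ) ^ j ≤ x) :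
    ∑ j ∈ s, Prof.γ j ≤ 4 * x := by
  rcases s.eq_empty_or_nonempty with rfl | hs
  · simpa using mul_nonneg (by norm_num : (0 : ℝ) ≤ 4) hx
  · have hx' := h _ (max'_mem s hs)
    calc ∑ j ∈ s, Prof.γ j = 2 * ∑ j ∈ s, (2 : ℝ) ^ j := by
          rw [mul_sum]
          exact sum_congr rfl fun j _ => by rw [Prof.γ, zpow_add_one₀ two_ne_zero]; ring
      _ ≤ 2 * (2 * (2 : ℝ) ^ (s.max' hs)) :=
          mul_le_mul_of_nonneg_left (sum_zpow_le s _ fun j hj => le_max' s j hj) two_pos.le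
      _ ≤ 4 * x := by linarith

/-- The total mass of unrecorded levels. -/
lemma sum_γ_thr_le {Q : ℤ → ℝ} (hQ : ∀ j, 0 ≤ Q j) (hQ1 : ∑ j ∈ P.I, Prof.γ j * Q j ≤ 1)
    (s : Finset ℤ) (hs : s ⊆ P.I) : ∑ j ∈ s, Prof.γ j * Prof.thr Q j ≤ 24 := by
  have h1 : ∑ j ∈ s, Prof.γ j * Q j ≤ 1 := le_trans
    (sum_le_sum_of_subset_of_nonneg hs fun j _ _ => mul_nonneg (Prof.γ_pos j).le (hQ j)) hQ1
  have h2 : ∑ j ∈ s, Prof.γ j * max 0 (-(j : ℝ)) ≤ 16 := by
    set t := s.filter fun j => j < 0 with ht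
    have e : ∑ j ∈ s, Prof.γ j * max 0 (-(j : ℝ)) = ∑ j ∈ t, Prof.γ j * max 0 (-(j : ℝ)) := by
      refine (sum_subset (filter_subset _ _) fun j hj hjt => ?_).symm
      have : (0 : ℝ) ≤ j := by
        have : ¬ j < 0 := fun h => hjt (mem_filter.2 ⟨hj, h⟩)
        exact_mod_cast not_lt.1 this
      rw [max_eq_left (by linarith), mul_zero]
    have hinj : Set.InjOn (fun j : ℤ => (-j).toNat) t := by
      intro a ha b hb hab
      have := (mem_filter.1 ha).2
      have := (mem_filter.1 hb).2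
      simp only at hab
      omega
    have hterm : ∀ j ∈ t, Prof.γ j * max 0 (-(j : ℝ)) ≤ 4 * (3 / 4 : ℝ) ^ (-j).toNat := by
      intro j hj
      obtain ⟨i, rfl⟩ : ∃ i : ℕ, j = -(i : ℤ) :=
        ⟨(-j).toNat, by have := (mem_filter.1 hj).2; omega⟩
      have hb : (i : ℝ) ≤ 2 * (3 / 2 : ℝ) ^ i := by
        have := one_add_mul_le_pow (a := (1 / 2 : ℝ)) (by norm_num) i
        norm_num at this
        linarith
      simp only [neg_neg, Int.toNat_natCast, Int.cast_neg, Int.cast_natCast]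
      rw [max_eq_right (Nat.cast_nonneg _), Prof.γ, zpow_add_one₀ two_ne_zero, zpow_neg,
        zpow_natCast]
      calc ((2 : ℝ) ^ i)⁻¹ * 2 * i ≤ ((2 : ℝ) ^ i)⁻¹ * 2 * (2 * (3 / 2) ^ i) := by gcongr
        _ = 4 * ((2⁻¹ : ℝ) ^ i * (3 / 2) ^ i) := by rw [inv_pow]; ring
        _ = _ := by rw [← mul_pow]; norm_num
    rw [e]
    calc ∑ j ∈ t, Prof.γ j * max 0 (-(j : ℝ)) ≤ ∑ j ∈ t, 4 * (3 / 4 : ℝ) ^ (-j).toNat :=
          sum_le_sum hterm
      _ = ∑ i ∈ t.image (fun j : ℤ => (-j).toNat), 4 * (3 / 4 : ℝ) ^ i :=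
          (sum_image (f := fun i => 4 * (3 / 4 : ℝ) ^ i) hinj).symm
      _ ≤ ∑ i ∈ range ((t.image fun j : ℤ => (-j).toNat).sup id + 1), 4 * (3 / 4 : ℝ) ^ i :=
          sum_le_sum_of_subset_of_nonneg
            (fun i hi => mem_range.2 (Nat.lt_succ_of_le (le_sup (f := id) hi)))
            (fun _ _ _ => by positivity)
      _ ≤ 16 := by
          rw [← mul_sum, geom_sum_eq (by norm_num)]
          have : (0 : ℝ) ≤ (3 / 4) ^ ((t.image fun j : ℤ => (-j).toNat).sup id + 1) := by positivity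
          linarith [show ((3 / 4 : ℝ) ^ ((t.image fun j : ℤ => (-j).toNat).sup id + 1) - 1)
            / (3 / 4 - 1) = 4 - 4 * (3 / 4) ^ ((t.image fun j : ℤ => (-j).toNat).sup id + 1) by ring]
  calc ∑ j ∈ s, Prof.γ j * Prof.thr Q j
      = 8 * ∑ j ∈ s, Prof.γ j * Q j + ∑ j ∈ s, Prof.γ j * max 0 (-(j : ℝ)) := by
        rw [mul_sum, ← sum_add_distrib]
        exact sum_congr rfl fun j _ => by rw [Prof.thr]; ring
    _ ≤ 24 := by linarith

lemma Prof.mu_nonneg {Q : ℤ → ℝ} (hQ : ∀ j, 0 ≤ Q j) (j : ℤ) (a : ℕ) : 0 ≤ Prof.mu Q j a := by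
  unfold Prof.mu
  split_ifs
  · exact zero_le_one
  · exact mul_nonneg (Real.exp_pos _).le (div_nonneg (pow_nonneg (hQ j) _) (Nat.cast_nonneg _))

lemma Prof.prob_le {Q : ℤ → ℝ} (hQ : ∀ j, 0 ≤ Q j) {a : P.I → ℕ} (ha : P.Good Q a) :
    P.prob Q a ≤ ∏ j : P.I, Prof.mu Q j (a j) := by
  refine prod_le_prod (fun j _ => div_nonneg (pow_nonneg (hQ j) _) (Nat.cast_nonneg _))
    fun j _ => ?_
  unfold Prof.mu
  split_ifs with h
  · simp [h]
  · refine le_mul_of_one_le_left (div_nonneg (pow_nonneg (hQ j) _) (Nat.cast_nonneg _))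
      (Real.one_le_exp ?_)
    linarith [(ha j).resolve_left h]

lemma Prof.mu_shift {Q : ℤ → ℝ} (hQ : ∀ j, 0 ≤ Q j) (j : ℤ) (a : ℕ) :
    Prof.mu Q j (a + 1) * (a + 1 : ℕ) ≤ Real.exp 1 * Q j * Prof.mu Q j a := by
  have hf : (((a + 1).factorial : ℕ) : ℝ) = (a + 1 : ℕ) * (a.factorial : ℝ) := by
    rw [Nat.factorial_succ, Nat.cast_mul]
  have he : Real.exp (((a + 1 : ℕ) : ℝ) - Prof.thr Q j)
      = Real.exp 1 * Real.exp ((a : ℝ) - Prof.thr Q j) := by
    rw [← Real.exp_add]; push_cast; ring_nf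
  have h1 : Prof.mu Q j (a + 1) * (a + 1 : ℕ)
      = Real.exp 1 * Q j * (Real.exp ((a : ℝ) - Prof.thr Q j) * (Q j ^ a / a.factorial)) := by
    rw [Prof.mu, if_neg (Nat.succ_ne_zero a), he, hf, pow_succ]
    field_simp
  rw [h1]
  refine mul_le_mul_of_nonneg_left ?_ (mul_nonneg (Real.exp_pos _).le (hQ j))
  unfold Prof.mu
  split_ifs with h
  · subst h
    simpa using Prof.thr_nonneg hQ j
  · exact le_rfl

/-- The expected bound for tuples of children. -/
noncomputable def Prof.Phi (P : Prof) (Q : ℤ → ℝ) (c : ℕ) : ℝ :=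
  ∑ a ∈ P.box, (∏ j : P.I, Prof.mu Q j (a j)) * P.Val c a

lemma Prof.mu_sum_le {Q : ℤ → ℝ} (hQ : ∀ j, 0 ≤ Q j) (j : ℤ) (N : ℕ) :
    ∑ a ∈ range (N + 1), Prof.mu Q j a
      ≤ Real.exp ((if j < 0 then (2 : ℝ) ^ j else 0) + 3 / 2 * (Prof.γ j * Q j)) := by
  have hQj := hQ j
  set x := Real.exp 1 * Q j with hx
  have hx0 : 0 ≤ x := mul_nonneg (Real.exp_pos _).le hQj
  have he3 : Real.exp 1 ≤ 3 := by linarith [Real.exp_one_lt_d9]
  have hsum : ∑ a ∈ range (N + 1), Prof.mu Q j a
      = 1 + Real.exp (-Prof.thr Q j) * (∑ a ∈ range (N + 1), x ^ a / a.factorial - 1) := by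
    rw [sum_range_succ', sum_range_succ' (fun a => x ^ a / (a.factorial : ℝ))]
    simp only [pow_zero, Nat.factorial_zero, Nat.cast_one, div_one, add_sub_cancel_right]
    rw [mul_sum, add_comm]
    congr 1
    refine sum_congr rfl fun a _ => ?_
    rw [Prof.mu, if_neg (Nat.succ_ne_zero a), hx, mul_pow, ← Real.exp_nat_mul, mul_one, sub_eq_add_neg,
      Real.exp_add]
    ring
  have hexp : ∑ a ∈ range (N + 1), x ^ a / a.factorial ≤ Real.exp x := Real.sum_le_exp_of_nonneg hx0 _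
  have hle : ∑ a ∈ range (N + 1), Prof.mu Q j a
      ≤ 1 + Real.exp (-Prof.thr Q j) * (Real.exp x - 1) := by
    rw [hsum]
    have := mul_le_mul_of_nonneg_left (sub_le_sub_right hexp 1) (Real.exp_pos (-Prof.thr Q j)).le
    linarith
  refine hle.trans (le_trans ?_ (Real.add_one_le_exp _))
  have hxle : x ≤ 8 * Q j := by rw [hx]; nlinarith
  split_ifs with hj
  · have hj' : (0 : ℝ) ≤ -(j : ℝ) := by
      have : (j : ℝ) ≤ 0 := by exact_mod_cast hj.le
      linarith
    have h1 : Real.exp (-Prof.thr Q j) * (Real.exp x - 1) ≤ Real.exp (j : ℝ) := by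
      have : Real.exp (-Prof.thr Q j) * Real.exp x ≤ Real.exp (j : ℝ) := by
        rw [← Real.exp_add, Real.exp_le_exp, Prof.thr, max_eq_right hj']
        linarith
      nlinarith [Real.exp_pos (-Prof.thr Q j)]
    have h2 : Real.exp (j : ℝ) ≤ (2 : ℝ) ^ j := by
      have : Real.exp (j : ℝ) = (Real.exp 1) ^ j := by
        rw [← Real.rpow_intCast, Real.exp_one_rpow]
      rw [this]
      obtain ⟨i, rfl⟩ : ∃ i : ℕ, j = -(i : ℤ) := ⟨(-j).toNat, by omega⟩
      rw [zpow_neg, zpow_neg, zpow_natCast, zpow_natCast]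
      gcongr
      linarith [Real.exp_one_gt_d9]
    have : 0 ≤ 3 / 2 * (Prof.γ j * Q j) := by
      have := Prof.γ_pos j; positivity
    linarith
  · have h2 : (2 : ℝ) ≤ Prof.γ j := by
      rw [Prof.γ]
      calc (2 : ℝ) = 2 ^ (1 : ℤ) := by norm_num
        _ ≤ _ := zpow_le_zpow_right₀ one_le_two (by omega)
    have h3 : Real.exp (-Prof.thr Q j) * (Real.exp x - 1) ≤ x := by
      have ha : Real.exp x - 1 ≤ x * Real.exp x := by
        have hneg := Real.add_one_le_exp (-x)
        have hm := mul_le_mul_of_nonneg_left hneg (Real.exp_pos x).le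
        rw [← Real.exp_add, add_neg_cancel, Real.exp_zero] at hm
        linarith
      have hb : Real.exp (-Prof.thr Q j) * Real.exp x ≤ 1 := by
        rw [← Real.exp_add, Real.exp_le_one_iff, Prof.thr]
        linarith [le_max_left (0 : ℝ) (-(j : ℝ))]
      calc Real.exp (-Prof.thr Q j) * (Real.exp x - 1)
          ≤ Real.exp (-Prof.thr Q j) * (x * Real.exp x) :=
            mul_le_mul_of_nonneg_left ha (Real.exp_pos _).le
        _ = x * (Real.exp (-Prof.thr Q j) * Real.exp x) := by ring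
        _ ≤ x * 1 := mul_le_mul_of_nonneg_left hb hx0
        _ = x := mul_one x
    have h4 : x ≤ 3 / 2 * (Prof.γ j * Q j) := by rw [hx]; nlinarith
    linarith

lemma Prof.Phi_zero_le {Q : ℤ → ℝ} (hQ : ∀ j, 0 ≤ Q j)
    (hQ1 : ∑ j ∈ P.I, Prof.γ j * Q j ≤ 1) : P.Phi Q 0 ≤ Real.exp 4 := by
  have h : P.Phi Q 0 = ∏ j : P.I, ∑ a ∈ range (P.v + 1), Prof.mu Q j a := by
    rw [prod_univ_sum]
    exact sum_congr rfl fun a _ => by simp [Prof.Val]
  rw [h]
  refine le_trans (prod_le_prod (g := fun j : P.I =>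
      Real.exp ((if (j : ℤ) < 0 then (2 : ℝ) ^ (j : ℤ) else 0) + 3 / 2 * (Prof.γ j * Q j)))
    (fun (j : P.I) _ => sum_nonneg fun a _ => Prof.mu_nonneg hQ j a)
    fun (j : P.I) _ => Prof.mu_sum_le hQ (j : ℤ) P.v) ?_
  rw [← Real.exp_sum, Real.exp_le_exp, sum_coe_sort P.I (fun j : ℤ =>
    (if j < 0 then (2 : ℝ) ^ j else 0) + 3 / 2 * (Prof.γ j * Q j)), sum_add_distrib, ← mul_sum,
    ← sum_filter]
  have := sum_zpow_le (P.I.filter fun j => j < 0) (-1) fun j hj => by
    have := (mem_filter.1 hj).2; omega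
  norm_num at this
  linarith

lemma Prof.Phi_succ_le {Q : ℤ → ℝ} (hQ : ∀ j, 0 ≤ Q j)
    (hQ1 : ∑ j ∈ P.I, Prof.γ j * Q j ≤ 1) (c : ℕ) : P.Phi Q (c + 1) ≤ 27 * P.Phi Q c := by
  have hw : ∀ a : P.I → ℕ, 0 ≤ ∏ j : P.I, Prof.mu Q j (a j) := fun a =>
    prod_nonneg fun j _ => Prof.mu_nonneg hQ j _
  have h0 : 0 ≤ P.Phi Q c := sum_nonneg fun a _ => mul_nonneg (hw a) (Prof.Val_nonneg c a)
  have key : ∀ j : P.I, ∑ a ∈ P.box, (∏ i : P.I, Prof.mu Q i (a i))
      * ((a j : ℝ) * P.Val c (Function.update a j (a j - 1))) ≤ Real.exp 1 * Q j * P.Phi Q c := by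
    intro j
    set s := P.box.filter fun a => a j ≠ 0 with hs
    rw [← sum_subset (filter_subset (fun a => a j ≠ 0) P.box) fun a ha hna => by
      have h0 : a j = 0 := not_not.1 fun h => hna (mem_filter.2 ⟨ha, h⟩)
      rw [h0, Nat.cast_zero, zero_mul, mul_zero]]
    let f : (P.I → ℕ) → (P.I → ℕ) := fun a => Function.update a j (a j - 1)
    have hinj : Set.InjOn f s := by
      intro a ha b hb hab
      funext i
      by_cases hi : i = j
      · subst hi
        have h1 := congrFun hab i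
        simp only [f, Function.update_self] at h1
        have := (mem_filter.1 ha).2
        have := (mem_filter.1 hb).2
        omega
      · simpa [f, Function.update_of_ne hi] using congrFun hab i
    calc ∑ a ∈ s, (∏ i : P.I, Prof.mu Q i (a i)) * ((a j : ℝ) * P.Val c (f a))
        ≤ ∑ a ∈ s, Real.exp 1 * Q j * ((∏ i : P.I, Prof.mu Q i (f a i)) * P.Val c (f a)) := by
          refine sum_le_sum fun a ha => ?_
          obtain ⟨b, hb⟩ := Nat.exists_eq_succ_of_ne_zero (mem_filter.1 ha).2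
          have e1 := mul_prod_erase univ (fun i : P.I => Prof.mu Q i (a i)) (mem_univ j)
          have e2 := mul_prod_erase univ (fun i : P.I => Prof.mu Q i (f a i)) (mem_univ j)
          have e3 : ∏ i ∈ univ.erase j, Prof.mu Q i (f a i) = ∏ i ∈ univ.erase j, Prof.mu Q i (a i) :=
            prod_congr rfl fun i hi => by simp [f, Function.update_of_ne (ne_of_mem_erase hi)]
          rw [← e1, ← e2, e3]
          have hfj : f a j = b := by simp [f, hb]
          rw [hfj, hb]
          have h1 := mul_le_mul_of_nonneg_right (Prof.mu_shift hQ j b)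
            (mul_nonneg (prod_nonneg fun (i : P.I) (_ : i ∈ univ.erase j) =>
              Prof.mu_nonneg hQ i (a i)) (Prof.Val_nonneg (P := P) c (f a)))
          linarith
      _ = Real.exp 1 * Q j * ∑ b ∈ s.image f, (∏ i : P.I, Prof.mu Q i (b i)) * P.Val c b := by
          rw [sum_image hinj, mul_sum]
      _ ≤ _ := by
          refine mul_le_mul_of_nonneg_left (sum_le_sum_of_subset_of_nonneg ?_
            fun b _ _ => mul_nonneg (hw b) (Prof.Val_nonneg c b))
            (mul_nonneg (Real.exp_pos _).le (hQ j))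
          intro b hb
          obtain ⟨a, ha, rfl⟩ := mem_image.1 hb
          refine Fintype.mem_piFinset.2 fun i => mem_range.2 ?_
          have := mem_range.1 (Fintype.mem_piFinset.1 (mem_filter.1 ha).1 i)
          by_cases hi : i = j
          · subst hi; simp only [f, Function.update_self]; omega
          · simpa [f, Function.update_of_ne hi] using this
  calc P.Phi Q (c + 1) = 24 * P.Phi Q c + ∑ j : P.I, Prof.γ j * ∑ a ∈ P.box,
        (∏ i : P.I, Prof.mu Q i (a i)) * ((a j : ℝ) * P.Val c (Function.update a j (a j - 1))) := by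
        rw [Prof.Phi, Prof.Phi]
        simp only [Prof.Val, mul_add, sum_add_distrib, mul_sum]
        congr 1
        · exact sum_congr rfl fun a _ => by ring
        · rw [sum_comm]
          exact sum_congr rfl fun j _ => sum_congr rfl fun a _ => by ring
    _ ≤ 24 * P.Phi Q c + ∑ j : P.I, Prof.γ j * (Real.exp 1 * Q j * P.Phi Q c) := by
        gcongr with j
        · exact (Prof.γ_pos _).le
        · exact key j
    _ = (24 + Real.exp 1 * ∑ j ∈ P.I, Prof.γ j * Q j) * P.Phi Q c := by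
        rw [← sum_coe_sort P.I, add_mul, mul_sum, sum_mul]
        congr 1
        exact sum_congr rfl fun j _ => by ring
    _ ≤ 27 * P.Phi Q c := by
        refine mul_le_mul_of_nonneg_right ?_ h0
        have := mul_le_mul_of_nonneg_left hQ1 (Real.exp_pos 1).le
        linarith [Real.exp_one_lt_d9]

lemma Prof.Phi_le {Q : ℤ → ℝ} (hQ : ∀ j, 0 ≤ Q j) (hQ1 : ∑ j ∈ P.I, Prof.γ j * Q j ≤ 1) :
    ∀ c, P.Phi Q c ≤ Real.exp 4 * 27 ^ c
  | 0 => by simpa using Prof.Phi_zero_le hQ hQ1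
  | c + 1 => by
    refine (Prof.Phi_succ_le hQ hQ1 c).trans ?_
    rw [pow_succ]
    linarith [Prof.Phi_le hQ hQ1 c]

/-- The covers have bounded total weight. -/
theorem Prof.Qseq_bound (hn : 0 < P.n) (hq : 0 < P.q) (hqk : ((P.k : ℝ) + 1) * P.q ≤ 1) :
    ∀ m, ∑ J ∈ P.I, Prof.γ J * P.Qseq m J ≤ 1
  | 0 => by simp [Prof.Qseq]
  | m + 1 => by
    have hQ := Prof.Qseq_nonneg hq m
    have hQ1 := Prof.Qseq_bound hn hq hqk m
    set Q := P.Qseq m with hQdef
    have hk : (0 : ℝ) < (P.k : ℝ) + 1 := by positivity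
    have hK := Prof.K0_pos (P := P)
    have hn' : (0 : ℝ) < P.n := by exact_mod_cast hn
    set b := 1 + 1 / (((P.k : ℝ) + 1) * P.q) with hb
    have hb0 : 0 < b := by positivity
    set S := ∑ c ∈ range (P.v + 1), P.Phi Q c / P.K0 ^ c with hS
    have hmain : ∀ av : Finset (Fin (P.k + 1)),
        ∑ J ∈ P.I, Prof.γ J * ∑ a ∈ P.reach Q av.card J, P.n * P.q ^ av.card * P.prob Q a
          ≤ 4 / P.K0 * (P.q * b) ^ av.card * S := by
      intro av
      set w := fun a : P.I → ℕ => P.n * P.q ^ av.card * ∏ j : P.I, Prof.mu Q j (a j) with hw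
      have hw0 : ∀ a, 0 ≤ w a := fun a =>
        mul_nonneg (by positivity) (prod_nonneg fun j _ => Prof.mu_nonneg hQ j _)
      calc ∑ J ∈ P.I, Prof.γ J * ∑ a ∈ P.reach Q av.card J, P.n * P.q ^ av.card * P.prob Q a
          ≤ ∑ J ∈ P.I, Prof.γ J * ∑ a ∈ P.reach Q av.card J, w a := by
            gcongr with J hJ a ha
            · exact (Prof.γ_pos J).le
            · exact mul_le_mul_of_nonneg_left (Prof.prob_le hQ (mem_filter.1 ha).2.1) (by positivity)
        _ ≤ ∑ a ∈ P.box, (∑ J ∈ P.I.filter fun J => (2 : ℝ) ^ J ≤ P.value av.card a, Prof.γ J) * w a := by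
            simp only [Prof.reach, mul_sum, sum_mul, sum_filter]
            rw [sum_comm]
            refine sum_le_sum fun a _ => sum_le_sum fun J _ => ?_
            by_cases h : (2 : ℝ) ^ J ≤ P.value av.card a
            · rw [if_pos h]
              split_ifs with h'
              · exact le_rfl
              · simp only [mul_zero]; exact mul_nonneg (Prof.γ_pos J).le (hw0 a)
            · rw [if_neg h, if_neg fun h' => h h'.2]
              simp
        _ ≤ ∑ a ∈ P.box, 4 * P.value av.card a * w a := by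
            gcongr with a _
            · exact hw0 a
            · exact sum_γ_below _ (Prof.value_nonneg hq _ a) fun j hj => (mem_filter.1 hj).2
        _ = 4 / P.K0 * (P.q * b) ^ av.card * S := by
            simp only [hS, hw, Prof.Phi, Prof.value, mul_sum, sum_mul, sum_div]
            rw [sum_comm]
            refine sum_congr rfl fun c _ => sum_congr rfl fun a _ => ?_
            rw [hb, mul_pow]
            field_simp
    have hS2 : S ≤ Real.exp 4 * 2 := by
      calc S ≤ ∑ c ∈ range (P.v + 1), Real.exp 4 * (1 / 2 : ℝ) ^ c := by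
            refine sum_le_sum fun c _ => ?_
            rw [div_le_iff₀ (by positivity), mul_assoc, ← mul_pow]
            refine (Prof.Phi_le hQ hQ1 c).trans ?_
            gcongr
            linarith [Prof.K0_ge (P := P)]
        _ ≤ Real.exp 4 * 2 := by rw [← mul_sum]; gcongr; exact sum_geometric_two_le _
    have hav : ∑ av : Finset (Fin (P.k + 1)), (P.q * b) ^ av.card ≤ Real.exp 2 := by
      have h := Finset.sum_pow_mul_eq_add_pow (P.q * b) (1 : ℝ) (univ : Finset (Fin (P.k + 1)))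
      simp only [one_pow, mul_one, powerset_univ, card_univ, Fintype.card_fin] at h
      rw [h]
      have hx : P.q * b ≤ 2 / ((P.k : ℝ) + 1) := by
        have e : P.q * b * ((P.k : ℝ) + 1) = ((P.k : ℝ) + 1) * P.q + 1 := by
          rw [hb]; field_simp
        rw [le_div_iff₀ hk, e]
        linarith
      calc (P.q * b + 1) ^ (P.k + 1) ≤ Real.exp (P.q * b) ^ (P.k + 1) :=
            pow_le_pow_left₀ (by positivity) (Real.add_one_le_exp _) _
        _ ≤ Real.exp 2 := by
            rw [← Real.exp_nat_mul, Real.exp_le_exp]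
            push_cast
            rw [le_div_iff₀ hk] at hx
            linarith
    have hS0 : 0 ≤ S := sum_nonneg fun c _ => div_nonneg (sum_nonneg fun a _ =>
      mul_nonneg (prod_nonneg fun j _ => Prof.mu_nonneg hQ j _) (Prof.Val_nonneg c a)) (by positivity)
    calc ∑ J ∈ P.I, Prof.γ J * P.Qseq (m + 1) J
        = ∑ _col : Fin (P.k + 1), ∑ av : Finset (Fin (P.k + 1)), ∑ J ∈ P.I,
            Prof.γ J * ∑ a ∈ P.reach Q av.card J, P.n * P.q ^ av.card * P.prob Q a := by
          simp only [Prof.Qseq, Prof.step, mul_sum, ← hQdef]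
          rw [sum_comm]
          exact sum_congr rfl fun _ _ => sum_comm
      _ ≤ ∑ _col : Fin (P.k + 1), ∑ av : Finset (Fin (P.k + 1)),
            4 / P.K0 * (P.q * b) ^ av.card * S := sum_le_sum fun _ _ => sum_le_sum fun av _ => hmain av
      _ = ((P.k : ℝ) + 1) * (4 / P.K0 * (∑ av : Finset (Fin (P.k + 1)), (P.q * b) ^ av.card) * S) := by
          rw [sum_const, card_univ, Fintype.card_fin, nsmul_eq_mul, ← sum_mul, ← mul_sum]
          push_cast; rfl
      _ ≤ ((P.k : ℝ) + 1) * (4 / P.K0 * Real.exp 2 * (Real.exp 4 * 2)) := by gcongr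
      _ ≤ 1 := by
          have he : Real.exp 2 * Real.exp 4 ≤ 450 := by
            rw [← Real.exp_add, show (2 : ℝ) + 4 = (6 : ℕ) by norm_num, ← Real.exp_one_pow]
            calc Real.exp 1 ^ 6 ≤ (2.72 : ℝ) ^ 6 :=
                  pow_le_pow_left₀ (Real.exp_pos _).le (by linarith [Real.exp_one_lt_d9]) _
              _ ≤ _ := by norm_num
          rw [Prof.K0]
          field_simp
          linarith

end Vale.Agent.P064.Tw
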