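import Vale.Agent.P064.Tw.Profile

/-! Witness subgraphs of rich vertices and the bound on the total richness of roots. -/

namespace Vale.Agent.P064.Tw

open Finset
open scoped Classical

variable {V : Type} [Fintype V] [DecidableEq V]

lemma sum_biUnion_le_nonneg {ι β : Type*} [DecidableEq β] (s : Finset ι) (t : ι → Finset β)
    (f : β → ℝ) (hf : ∀ b, 0 ≤ f b) :
    ∑ b ∈ s.biUnion t, f b ≤ ∑ i ∈ s, ∑ b ∈ t i, f b := by
  induction s using Finset.induction_on with
  | empty => simp
  | insert i s hi ih =>
    rw [biUnion_insert, sum_insert hi]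
    have h := sum_union_inter (s₁ := t i) (s₂ := s.biUnion t) (f := f)
    have h0 : 0 ≤ ∑ b ∈ t i ∩ s.biUnion t, f b := sum_nonneg fun b _ => hf b
    linarith

lemma esymm_le {ι : Type*} [DecidableEq ι] (w : ι → ℝ) (hw : ∀ i, 0 ≤ w i) (s : Finset ι) :
    ∀ a : ℕ, ∑ t ∈ s.powersetCard a, ∏ i ∈ t, w i ≤ (∑ i ∈ s, w i) ^ a / a.factorial := by
  induction s using Finset.induction_on with
  | empty =>
    intro a
    cases a with
    | zero => simp
    | succ a =>
      rw [powersetCard_eq_empty.2 (by simp), sum_empty]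
      simp
  | insert i s hi ih =>
    intro a
    cases a with
    | zero => simp
    | succ a =>
      rw [powersetCard_succ_insert hi, sum_union, sum_image, sum_insert hi]
      · have e : ∀ t ∈ s.powersetCard a, ∏ j ∈ insert i t, w j = w i * ∏ j ∈ t, w j :=
          fun t ht => prod_insert fun h => hi ((mem_powersetCard.1 ht).1 h)
        rw [sum_congr rfl e, ← mul_sum]
        set X := ∑ j ∈ s, w j with hX
        have hX0 : 0 ≤ X := sum_nonneg fun j _ => hw j
        have hber : X ^ (a + 1) + (a + 1 : ℕ) * w i * X ^ a ≤ (w i + X) ^ (a + 1) := by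
          rw [add_pow, sum_range_succ', sum_range_succ']
          have : (0 : ℝ) ≤ ∑ k ∈ range a, w i ^ (k + 1 + 1) * X ^ (a + 1 - (k + 1 + 1))
              * ((a + 1).choose (k + 1 + 1) : ℝ) :=
            sum_nonneg fun k _ => by have := hw i; positivity
          simp only [zero_add, pow_one, pow_zero, Nat.add_sub_cancel, Nat.choose_one_right,
            Nat.choose_zero_right, Nat.cast_one, Nat.sub_zero, one_mul, mul_one]
          push_cast at this ⊢
          nlinarith
        refine (add_le_add (ih (a + 1)) (mul_le_mul_of_nonneg_left (ih a) (hw i))).trans ?_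
        rw [Nat.factorial_succ, Nat.cast_mul, le_div_iff₀ (by positivity)]
        refine le_trans (le_of_eq ?_) hber
        field_simp
      · intro t ht t' ht' h
        rw [← erase_insert (fun h' => hi ((mem_powersetCard.1 ht).1 h')), h,
          erase_insert (fun h' => hi ((mem_powersetCard.1 ht').1 h'))]
      · rw [disjoint_left]
        intro t ht ht'
        obtain ⟨u, -, rfl⟩ := mem_image.1 ht'
        exact hi ((mem_powersetCard.1 ht).1 (mem_insert_self i u))

/-- Tuples of distinct children are bounded by the profile bound. -/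
lemma injSum_le_Val {P : Prof} (h : V → ℝ) (h0 : ∀ y, 0 ≤ h y) (lev : V → P.I)
    (hlev : ∀ y, h y ≤ Prof.γ (lev y)) (Ex : Finset P.I) :
    ∀ (c : ℕ) (S : Finset V) (a : P.I → ℕ),
      (∀ j ∈ Ex, (S.filter fun y => lev y = j).card ≤ a j) →
      ∑ y ∈ S.filter (fun y => lev y ∉ Ex), h y ≤ 24 → injSum h c S ≤ P.Val c a
  | 0, _, _, _, _ => by simp [injSum, Prof.Val]
  | c + 1, S, a, ha, hr => by
    rw [injSum, Prof.Val, ← sum_filter_add_sum_filter_not S (fun y => lev y ∉ Ex)]
    have hmono : ∀ y, ∑ x ∈ (S.erase y).filter (fun x => lev x ∉ Ex), h x ≤ 24 := fun y =>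
      le_trans (sum_le_sum_of_subset_of_nonneg (filter_subset_filter _ (erase_subset _ _))
        fun x _ _ => h0 x) hr
    refine add_le_add ?_ ?_
    · calc ∑ y ∈ S.filter (fun y => lev y ∉ Ex), h y * injSum h c (S.erase y)
          ≤ ∑ y ∈ S.filter (fun y => lev y ∉ Ex), h y * P.Val c a := by
            refine sum_le_sum fun y _ => mul_le_mul_of_nonneg_left ?_ (h0 y)
            exact injSum_le_Val h h0 lev hlev Ex c _ a (fun j hj =>
              le_trans (card_le_card (filter_subset_filter _ (erase_subset _ _))) (ha j hj)) (hmono y)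
        _ ≤ _ := by
            rw [← sum_mul]
            exact mul_le_mul_of_nonneg_right hr (Prof.Val_nonneg c a)
    · set T := S.filter fun y => ¬ lev y ∉ Ex with hT
      calc ∑ y ∈ T, h y * injSum h c (S.erase y)
          = ∑ j : P.I, ∑ y ∈ T.filter (fun y => lev y = j), h y * injSum h c (S.erase y) :=
            (sum_fiberwise T lev _).symm
        _ ≤ _ := by
          refine sum_le_sum fun j _ => ?_
          rcases (T.filter fun y => lev y = j).eq_empty_or_nonempty with he | ⟨y₀, hy₀⟩
          · rw [he, sum_empty]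
            exact mul_nonneg (mul_nonneg (Prof.γ_pos _).le (Nat.cast_nonneg _)) (Prof.Val_nonneg c _)
          have hj : j ∈ Ex := by
            obtain ⟨h1, h2⟩ := mem_filter.1 hy₀
            exact h2 ▸ not_not.1 (mem_filter.1 h1).2
          have hsub : T.filter (fun y => lev y = j) ⊆ S.filter fun y => lev y = j :=
            filter_subset_filter _ (filter_subset _ _)
          calc ∑ y ∈ T.filter (fun y => lev y = j), h y * injSum h c (S.erase y)
              ≤ ∑ _y ∈ T.filter (fun y => lev y = j),
                  Prof.γ j * P.Val c (Function.update a j (a j - 1)) := by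
                refine sum_le_sum fun y hy => ?_
                obtain ⟨hyT, hyj⟩ := mem_filter.1 hy
                have hih : injSum h c (S.erase y) ≤ P.Val c (Function.update a j (a j - 1)) := by
                  refine injSum_le_Val h h0 lev hlev Ex c _ _ (fun i hi => ?_) (hmono y)
                  by_cases hij : i = j
                  · subst hij
                    rw [Function.update_self, filter_erase, card_erase_of_mem]
                    · exact Nat.sub_le_sub_right (ha i hi) 1
                    · exact mem_filter.2 ⟨(mem_filter.1 hyT).1, hyj⟩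
                  · rw [Function.update_of_ne hij]
                    exact le_trans (card_le_card (filter_subset_filter _ (erase_subset _ _))) (ha i hi)
                refine le_trans (mul_le_mul_of_nonneg_left hih (h0 y)) ?_
                exact mul_le_mul_of_nonneg_right (hyj ▸ hlev y) (Prof.Val_nonneg c _)
            _ ≤ (a j : ℝ) * (Prof.γ j * P.Val c (Function.update a j (a j - 1))) := by
                rw [sum_const, nsmul_eq_mul]
                refine mul_le_mul_of_nonneg_right ?_
                  (mul_nonneg (Prof.γ_pos _).le (Prof.Val_nonneg c _))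
                exact_mod_cast (card_le_card hsub).trans (ha j hj)
            _ = _ := by ring

variable (C : Frame V) (par : V → Option V)

/-- Bags with fuel. -/
noncomputable def bagAux : ℕ → V → Finset V
  | 0, y => {y}
  | m + 1, y => insert y (C.K y ∩ (par y).elim ∅ (bagAux m))

/-- The ancestors of a vertex that may still receive edges from below it. -/
noncomputable def bag (y : V) : Finset V := bagAux C par (C.ord y + 1) y

/-- The bag of the parent. -/
noncomputable def pbag (y : V) : Finset V := (par y).elim ∅ (bag C par)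

/-- The edges available at a vertex. -/
noncomputable def avail (y : V) : Finset V := (pbag C par y).filter fun a => s(a, y) ∈ C.EH

/-- The descendant relation. -/
def Desc (d a : V) : Prop := Relation.ReflTransGen (fun x y => par x = some y) a d

/-- Richness with fuel. -/
noncomputable def hAux : ℕ → V → ℝ
  | 0, _ => 0
  | m + 1, y => 1 / (C.n * C.K0) * (1 + 1 / (((C.k : ℝ) + 1) * C.q)) ^ (avail C par y).card
      * ∑ c ∈ range (Fintype.card V + 1), injSum (hAux m) c (children par y) / C.K0 ^ c

/-- The number of later vertices. -/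
noncomputable def hgt (y : V) : ℕ := (univ.filter fun w => C.ord y < C.ord w).card

/-- The richness of a vertex. -/
noncomputable def rich (y : V) : ℝ := hAux C par (hgt C y + 1) y

variable {C par}

lemma injSum_congr {f g : V → ℝ} : ∀ (c : ℕ) (S : Finset V), (∀ y ∈ S, f y = g y) →
    injSum f c S = injSum g c S
  | 0, _, _ => rfl
  | c + 1, S, h => sum_congr rfl fun y hy => by
    rw [h y hy, injSum_congr c (S.erase y) fun z hz => h z (mem_of_mem_erase hz)]

lemma injSum_nonneg {f : V → ℝ} (hf : ∀ y, 0 ≤ f y) : ∀ (c : ℕ) (S : Finset V), 0 ≤ injSum f c S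
  | 0, _ => zero_le_one
  | c + 1, _ => sum_nonneg fun y _ => mul_nonneg (hf y) (injSum_nonneg hf c _)

lemma par_lt (hC : C.Valid) (hp : C.IsPar par) {y p : V} (h : par y = some p) :
    C.ord p < C.ord y := hC.klt p y (hp y p h)

lemma hgt_lt (hC : C.Valid) (hp : C.IsPar par) {y d : V} (hd : d ∈ children par y) :
    hgt C d < hgt C y := by
  have h := par_lt hC hp (mem_filter.1 hd).2
  refine card_lt_card (Finset.ssubset_iff_subset_ne.2 ⟨fun w hw => ?_, fun he => ?_⟩)
  · exact mem_filter.2 ⟨mem_univ w, h.trans (mem_filter.1 hw).2⟩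
  · have : d ∈ univ.filter fun w => C.ord d < C.ord w := he ▸ mem_filter.2 ⟨mem_univ d, h⟩
    exact lt_irrefl _ (mem_filter.1 this).2

lemma hAux_stable (hC : C.Valid) (hp : C.IsPar par) :
    ∀ (m : ℕ) (y : V), hgt C y < m → hAux C par m y = rich C par y := by
  intro m
  induction m using Nat.strong_induction_on with
  | _ m ih =>
    intro y hy
    obtain ⟨m, rfl⟩ : ∃ m', m = m' + 1 := ⟨m - 1, by omega⟩
    rw [rich, hAux, hAux]
    congr 1
    refine sum_congr rfl fun c _ => ?_
    congr 1
    refine injSum_congr c _ fun d hd => ?_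
    have := hgt_lt hC hp hd
    rw [ih m (by omega) d (by omega)]
    rcases Nat.lt_or_eq_of_le (show hgt C y ≤ m by omega) with h | h
    · exact (ih (hgt C y) (by omega) d this).symm
    · rw [h, ih m (by omega) d (by omega)]

lemma rich_eq (hC : C.Valid) (hp : C.IsPar par) (y : V) :
    rich C par y = 1 / (C.n * C.K0) * (1 + 1 / (((C.k : ℝ) + 1) * C.q)) ^ (avail C par y).card
      * ∑ c ∈ range (Fintype.card V + 1), injSum (rich C par) c (children par y) / C.K0 ^ c := by
  rw [rich, hAux]
  congr 1
  refine sum_congr rfl fun c _ => ?_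
  congr 1
  exact injSum_congr c _ fun d hd => hAux_stable hC hp _ d (hgt_lt hC hp hd)

lemma K0_pos (C : Frame V) : 0 < C.K0 := by unfold Frame.K0; positivity

lemma hAux_nonneg (hC : C.Valid) : ∀ (m : ℕ) (y : V), 0 ≤ hAux C par m y
  | 0, _ => le_rfl
  | m + 1, y => by
    have := hC.q0
    have := K0_pos C
    exact mul_nonneg (mul_nonneg (by positivity) (by positivity)) (sum_nonneg fun c _ =>
      div_nonneg (injSum_nonneg (hAux_nonneg hC m) c _) (by positivity))

lemma rich_pos (hC : C.Valid) (hp : C.IsPar par) (y : V) : 0 < rich C par y := by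
  have := hC.q0
  have hK := K0_pos C
  have hn : (0 : ℝ) < C.n := by have := hC.nn; exact_mod_cast (show 0 < C.n by omega)
  rw [rich_eq hC hp]
  refine mul_pos (by positivity) (sum_pos' (fun c _ => ?_) ⟨0, mem_range.2 (Nat.succ_pos _), ?_⟩)
  · exact div_nonneg (injSum_nonneg (fun z => hAux_nonneg hC _ z) c _) (by positivity)
  · simp [injSum]

lemma bagAux_stable (hC : C.Valid) (hp : C.IsPar par) :
    ∀ (m : ℕ) (y : V), C.ord y < m → bagAux C par m y = bag C par y := by
  intro m
  induction m using Nat.strong_induction_on with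
  | _ m ih =>
    intro y hy
    obtain ⟨m, rfl⟩ : ∃ m', m = m' + 1 := ⟨m - 1, by omega⟩
    rw [bag, bagAux, bagAux]
    congr 2
    cases h : par y with
    | none => rfl
    | some p =>
      have := par_lt hC hp h
      simp only [Option.elim_some]
      rw [ih m (by omega) p (by omega)]
      rcases Nat.lt_or_eq_of_le (show C.ord y ≤ m by omega) with h' | h'
      · exact (ih (C.ord y) (by omega) p this).symm
      · rw [h', ih m (by omega) p (by omega)]

lemma bag_eq (hC : C.Valid) (hp : C.IsPar par) (y : V) :
    bag C par y = insert y (C.K y ∩ pbag C par y) := by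
  rw [bag, bagAux, pbag]
  congr 2
  cases h : par y with
  | none => rfl
  | some p => exact bagAux_stable hC hp _ p (par_lt hC hp h)

lemma self_mem_bag (hC : C.Valid) (hp : C.IsPar par) (y : V) : y ∈ bag C par y := by
  rw [bag_eq hC hp]; exact mem_insert_self _ _

lemma ord_bag (hC : C.Valid) (hp : C.IsPar par) {y a : V} (ha : a ∈ bag C par y) :
    C.ord a ≤ C.ord y := by
  rw [bag_eq hC hp] at ha
  rcases mem_insert.1 ha with rfl | ha
  · exact le_rfl
  · exact (hC.klt _ _ (mem_inter.1 ha).1).le

lemma ord_pbag (hC : C.Valid) (hp : C.IsPar par) {y a : V} (ha : a ∈ pbag C par y) :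
    C.ord a < C.ord y := by
  unfold pbag at ha
  cases h : par y with
  | none => simp [h] at ha
  | some p =>
    rw [h] at ha
    exact (ord_bag hC hp ha).trans_lt (par_lt hC hp h)

lemma pbag_child {y d : V} (hd : d ∈ children par y) : pbag C par d = bag C par y := by
  rw [pbag, (mem_filter.1 hd).2]; rfl

lemma exists_colouring (hC : C.Valid) :
    ∃ col : V → Fin (C.k + 1), ∀ a b, a ∈ C.K b → col a ≠ col b := by
  suffices H : ∀ s : Finset V, ∃ col : V → Fin (C.k + 1),
      ∀ a ∈ s, ∀ b ∈ s, a ∈ C.K b → col a ≠ col b by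
    obtain ⟨col, h⟩ := H univ
    exact ⟨col, fun a b => h a (mem_univ a) b (mem_univ b)⟩
  intro s
  induction s using Finset.induction_on_max_value C.ord with
  | empty => exact ⟨fun _ => 0, by simp⟩
  | insert y s hys hmax ih =>
    obtain ⟨col, hcol⟩ := ih
    obtain ⟨i, hi⟩ : ∃ i, i ∉ (C.K y).image col := by
      by_contra hc
      simp only [not_exists, not_not] at hc
      have : Fintype.card (Fin (C.k + 1)) ≤ C.k := by
        rw [← card_univ]
        exact le_trans (card_le_card fun i _ => hc i) (card_image_le.trans (hC.kcard y))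
      simp at this
    refine ⟨Function.update col y i, fun a ha b hb hab => ?_⟩
    have hne : a ≠ b := fun h => lt_irrefl _ (h ▸ hC.klt a b hab)
    by_cases hby : b = y
    · subst hby
      rw [Function.update_self, Function.update_of_ne hne]
      exact fun h => hi (h ▸ mem_image_of_mem col hab)
    · have hb' := (mem_insert.1 hb).resolve_left hby
      have hay : a ≠ y := fun h =>
        absurd (hC.klt a b hab) (not_lt.2 (h ▸ hmax b hb'))
      rw [Function.update_of_ne hby, Function.update_of_ne hay]
      exact hcol a ((mem_insert.1 ha).resolve_left hay) b hb' hab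

lemma col_injOn_bag (hC : C.Valid) (hp : C.IsPar par) {col : V → Fin (C.k + 1)}
    (hcol : ∀ a b, a ∈ C.K b → col a ≠ col b) (y : V) : Set.InjOn col (bag C par y : Set V) := by
  intro a ha b hb h
  by_contra hne
  rw [mem_coe, bag_eq hC hp, mem_insert] at ha hb
  rcases ha with rfl | ha <;> rcases hb with rfl | hb
  · exact hne rfl
  · exact hcol b a (mem_inter.1 hb).1 h.symm
  · exact hcol a b (mem_inter.1 ha).1 h
  · rcases Nat.lt_trichotomy (C.ord a) (C.ord b) with hlt | heq | hgt
    · exact hcol a b (hC.clique a b y (mem_inter.1 ha).1 (mem_inter.1 hb).1 hlt) h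
    · exact hne (hC.inj heq)
    · exact hcol b a (hC.clique b a y (mem_inter.1 hb).1 (mem_inter.1 ha).1 hgt) h.symm

lemma desc_ord (hC : C.Valid) (hp : C.IsPar par) {d a : V} (h : Desc par d a) :
    C.ord d ≤ C.ord a := by
  induction h with
  | refl => exact le_rfl
  | tail _ h ih => exact (par_lt hC hp h).le.trans ih

lemma desc_unique (hC : C.Valid) (hp : C.IsPar par) {d d' a : V} {o : Option V}
    (hd : par d = o) (hd' : par d' = o) (h : Desc par d a) (h' : Desc par d' a) : d = d' := by
  have key : ∀ x x' : V, par x = o → par x' = o →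
      Relation.ReflTransGen (fun a b => par a = some b) x x' → x = x' := by
    intro x x' hx hx' hr
    rcases hr.cases_head with rfl | ⟨z, hz, hzx⟩
    · rfl
    · exfalso
      have h1 : par x' = some z := hx'.trans (hx.symm.trans hz)
      exact absurd (desc_ord hC hp (show Desc par x' z from hzx)) (not_le.2 (par_lt hC hp h1))
  rcases Relation.ReflTransGen.total_of_right_unique
    (fun a b c hab hac => Option.some_inj.1 (hab.symm.trans hac)) h h' with hr | hr
  · exact key d d' hd hd' hr
  · exact (key d' d hd' hd hr).symm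

variable (C)

/-- Labelled placements of witness pairs. -/
abbrev Obj (n : ℕ) : Type := Finset (Fin n) × Finset (Sym2 (Fin n))

/-- The weight of a family of placements. -/
noncomputable def famWt {n : ℕ} (q : ℝ) (F : Finset (Obj n)) : ℝ := ∑ o ∈ F, q ^ o.2.card

/-- The union of a selection of placements. -/
noncomputable def joinObj {n : ℕ} {ι : Type} [Fintype ι] (S : ι → Finset (Obj n)) : Obj n :=
  (univ.biUnion fun j => (S j).biUnion Prod.fst, univ.biUnion fun j => (S j).biUnion Prod.snd)

/-- The placement formed by a vertex, its available edges and its children. -/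
noncomputable def mkObj {n k : ℕ} {ι : Type} [Fintype ι] (t : Fin (k + 1) → Fin n) (x : Fin n)
    (av : Finset (Fin (k + 1))) (S : ι → Finset (Obj n)) : Obj n :=
  (insert x (joinObj S).1, av.image (fun i => s(x, t i)) ∪ (joinObj S).2)

variable (P : Prof)

/-- The placements built from one further vertex over given covers. -/
noncomputable def famStep (m : ℕ) (Fm : (Fin (P.k + 1) → Fin P.n) → ℤ → Finset (Obj P.n))
    (t : Fin (P.k + 1) → Fin P.n) (J : ℤ) : Finset (Obj P.n) :=
  (univ : Finset (Fin (P.k + 1))).biUnion fun col =>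
    (univ : Finset (Finset (Fin (P.k + 1)))).biUnion fun av =>
      (P.reach (P.Qseq m) av.card J).biUnion fun a =>
        (univ : Finset (Fin P.n)).biUnion fun x =>
          ((Fintype.piFinset fun j : P.I =>
              (Fm (Function.update t col x) j).powersetCard (a j)).filter fun S =>
            (mkObj t x av S).2.card = av.card + ∑ j, ∑ o ∈ S j, o.2.card).image (mkObj t x av)

/-- The covers. -/
noncomputable def Fam : ℕ → (Fin (P.k + 1) → Fin P.n) → ℤ → Finset (Obj P.n)
  | 0 => fun _ _ => ∅
  | m + 1 => famStep P m (Fam m)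

lemma famStep_wt (hq : 0 < P.q) (m : ℕ) (Fm : (Fin (P.k + 1) → Fin P.n) → ℤ → Finset (Obj P.n))
    (hF : ∀ t J, famWt P.q (Fm t J) ≤ P.Qseq m J) (t : Fin (P.k + 1) → Fin P.n) (J : ℤ) :
    famWt P.q (famStep P m Fm t J) ≤ P.step (P.Qseq m) J := by
  have hw : ∀ o : Obj P.n, 0 ≤ P.q ^ o.2.card := fun o => pow_nonneg hq.le _
  unfold famWt famStep Prof.step
  refine (sum_biUnion_le_nonneg _ _ _ hw).trans (sum_le_sum fun col _ => ?_)
  refine (sum_biUnion_le_nonneg _ _ _ hw).trans (sum_le_sum fun av _ => ?_)
  refine (sum_biUnion_le_nonneg _ _ _ hw).trans (sum_le_sum fun a _ => ?_)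
  refine (sum_biUnion_le_nonneg _ _ _ hw).trans ?_
  calc _ ≤ ∑ _x : Fin P.n, P.q ^ av.card * P.prob (P.Qseq m) a := sum_le_sum fun x _ => ?_
    _ = _ := by rw [sum_const, card_univ, Fintype.card_fin, nsmul_eq_mul, mul_assoc]
  refine (sum_image_le_of_nonneg fun o _ => hw o).trans ?_
  calc _ = ∑ S ∈ (Fintype.piFinset fun j : P.I =>
            (Fm (Function.update t col x) j).powersetCard (a j)).filter fun S =>
          (mkObj t x av S).2.card = av.card + ∑ j, ∑ o ∈ S j, o.2.card,
          P.q ^ av.card * ∏ j, ∏ o ∈ S j, P.q ^ o.2.card := by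
        refine sum_congr rfl fun S hS => ?_
        rw [(mem_filter.1 hS).2, pow_add]
        simp only [prod_pow_eq_pow_sum]
    _ ≤ ∑ S ∈ Fintype.piFinset fun j : P.I =>
            (Fm (Function.update t col x) j).powersetCard (a j),
          P.q ^ av.card * ∏ j, ∏ o ∈ S j, P.q ^ o.2.card :=
        sum_le_sum_of_subset_of_nonneg (filter_subset _ _) fun S _ _ =>
          mul_nonneg (pow_nonneg hq.le _) (prod_nonneg fun j _ => prod_nonneg fun o _ => hw o)
    _ = P.q ^ av.card * ∏ j : P.I, ∑ T ∈ (Fm (Function.update t col x) j).powersetCard (a j),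
          ∏ o ∈ T, P.q ^ o.2.card := by rw [← mul_sum, prod_univ_sum]
    _ ≤ _ := by
        refine mul_le_mul_of_nonneg_left ?_ (pow_nonneg hq.le _)
        refine prod_le_prod (fun j _ => sum_nonneg fun T _ => prod_nonneg fun o _ => hw o)
          fun j _ => (esymm_le _ hw _ _).trans ?_
        exact div_le_div_of_nonneg_right
          (pow_le_pow_left₀ (sum_nonneg fun o _ => hw o) (hF _ _) _) (Nat.cast_nonneg _)

lemma Fam_wt (hq : 0 < P.q) : ∀ (m : ℕ) (t : Fin (P.k + 1) → Fin P.n) (J : ℤ),
    famWt P.q (Fam P m t J) ≤ P.Qseq m J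
  | 0, _, _ => by simp [famWt, Fam, Prof.Qseq]
  | m + 1, t, J => famStep_wt P hq m _ (Fam_wt hq m) t J

variable (par)

/-- The levels in use. -/
noncomputable def levels : Finset ℤ := univ.image fun y => Int.log 2 (rich C par y)

/-- The parameters belonging to a frame and a parent map. -/
noncomputable def profOf : Prof := ⟨C.k, C.n, Fintype.card V, C.q, levels C par⟩

/-- The level of a vertex. -/
noncomputable def lev (y : V) : (profOf C par).I :=
  ⟨Int.log 2 (rich C par y), mem_image_of_mem _ (mem_univ y)⟩

/-- A witness for the level of a vertex. -/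
def IsWit (col : V → Fin (C.k + 1)) (m : ℕ) (y : V) (W : Finset V × Finset (Sym2 V)) : Prop :=
  y ∈ W.1 ∧ (∀ a ∈ W.1, Desc par y a) ∧ W.2 ⊆ C.EH ∧
    (∀ e ∈ W.2, (∀ a ∈ e, a ∈ W.1 ∨ a ∈ pbag C par y) ∧ ∃ a ∈ e, a ∈ W.1) ∧
    ∀ (π : V ↪ Fin C.n) (t : Fin (C.k + 1) → Fin C.n), (∀ a ∈ pbag C par y, t (col a) = π a) →
      (W.1.image π, W.2.image (Sym2.map π)) ∈ Fam (profOf C par) m t (lev C par y : ℤ)

variable {C par}

lemma rich_le_γ (hC : C.Valid) (hp : C.IsPar par) (y : V) :
    rich C par y ≤ Prof.γ (lev C par y : ℤ) :=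
  (Int.lt_zpow_succ_log_self one_lt_two (rich C par y)).le.trans_eq (by simp [Prof.γ, lev])

/-- The children counts of the recorded levels. -/
noncomputable def recd (C : Frame V) (par : V → Option V) (m : ℕ) (y : V) :
    Finset (profOf C par).I :=
  univ.filter fun j => Prof.thr ((profOf C par).Qseq m) j
    < ((children par y).filter fun d => lev C par d = j).card

lemma exists_profile (hC : C.Valid) (hp : C.IsPar par) (m : ℕ) (y : V) :
    ∃ a : (profOf C par).I → ℕ,
      (∀ j, a j = if j ∈ recd C par m y
        then ((children par y).filter fun d => lev C par d = j).card else 0) ∧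
      a ∈ (profOf C par).reach ((profOf C par).Qseq m) (avail C par y).card (lev C par y : ℤ) := by
  set P := profOf C par with hP
  set Q := P.Qseq m with hQdef
  have hQ0 : ∀ j, 0 ≤ Q j := Prof.Qseq_nonneg (P := P) hC.q0 m
  have hQ1 : ∑ j ∈ P.I, Prof.γ j * Q j ≤ 1 :=
    Prof.Qseq_bound (P := P) (show 0 < C.n by have := hC.nn; omega) hC.q0 hC.qk m
  set Ch := children par y with hCh
  set cnt : P.I → ℕ := fun j => (Ch.filter fun d => lev C par d = j).card with hcnt
  set Ex : Finset P.I := univ.filter fun j => Prof.thr Q j < cnt j with hEx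
  set a : P.I → ℕ := fun j => if j ∈ Ex then cnt j else 0 with ha
  have hgood : P.Good Q a := fun j => by
    by_cases hj : j ∈ Ex
    · exact Or.inr (by simpa [ha, hj] using (mem_filter.1 hj).2)
    · exact Or.inl (by simp [ha, hj])
  have hbox : a ∈ P.box := Fintype.mem_piFinset.2 fun j => mem_range.2 (by
    have : cnt j ≤ Fintype.card V := card_le_univ _
    show a j < Fintype.card V + 1
    simp only [ha]; split_ifs <;> omega)
  have hlight : ∑ d ∈ Ch.filter (fun d => lev C par d ∉ Ex), rich C par d ≤ 24 := by
    calc ∑ d ∈ Ch.filter (fun d => lev C par d ∉ Ex), rich C par d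
        = ∑ j ∈ univ.filter (fun j => j ∉ Ex),
            ∑ d ∈ Ch.filter (fun d => lev C par d = j), rich C par d := by
          refine (sum_fiberwise_of_maps_to (g := lev C par) (t := univ.filter fun j => j ∉ Ex)
            (fun d hd => mem_filter.2 ⟨mem_univ _, (mem_filter.1 hd).2⟩) _).symm.trans ?_
          refine sum_congr rfl fun j hj => sum_congr ?_ fun _ _ => rfl
          ext d
          simp only [mem_filter]
          constructor
          · exact fun h => ⟨h.1.1, h.2⟩
          · exact fun h => ⟨⟨h.1, h.2 ▸ (mem_filter.1 hj).2⟩, h.2⟩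
      _ ≤ ∑ j ∈ univ.filter (fun j => j ∉ Ex), Prof.γ (j : ℤ) * Prof.thr Q j := by
          refine sum_le_sum fun j hj => ?_
          calc ∑ d ∈ Ch.filter (fun d => lev C par d = j), rich C par d
              ≤ ∑ _d ∈ Ch.filter (fun d => lev C par d = j), Prof.γ (j : ℤ) :=
                sum_le_sum fun d hd => (mem_filter.1 hd).2 ▸ rich_le_γ hC hp d
            _ ≤ _ := by
                rw [sum_const, nsmul_eq_mul, mul_comm]
                refine mul_le_mul_of_nonneg_left ?_ (Prof.γ_pos _).le
                exact not_lt.1 fun h => (mem_filter.1 hj).2 (mem_filter.2 ⟨mem_univ j, h⟩)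
      _ ≤ 24 := by
          refine le_trans (le_of_eq ?_)
            (sum_γ_thr_le (P := P) hQ0 hQ1 ((univ.filter fun j => j ∉ Ex).image Subtype.val)
              fun j hj => by obtain ⟨i, -, rfl⟩ := mem_image.1 hj; exact i.2)
          exact (sum_image (f := fun j : ℤ => Prof.γ j * Prof.thr Q j)
            Subtype.val_injective.injOn).symm
  have hval : rich C par y ≤ P.value (avail C par y).card a := by
    rw [rich_eq hC hp, Prof.value]
    refine mul_le_mul_of_nonneg_left (sum_le_sum fun c _ => ?_)
      (mul_nonneg (by have := K0_pos C; positivity) (by have := hC.q0; positivity))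
    refine div_le_div_of_nonneg_right ?_ (pow_nonneg (K0_pos C).le c)
    exact injSum_le_Val (P := P) (rich C par) (fun z => (rich_pos hC hp z).le) (lev C par)
      (rich_le_γ hC hp) Ex c Ch a (fun j hj => by simp [ha, hj, hcnt]) hlight
  have hreach : a ∈ P.reach Q (avail C par y).card (lev C par y : ℤ) :=
    mem_filter.2 ⟨hbox, hgood, le_trans (by
      simpa [lev] using Int.zpow_log_le_self one_lt_two (rich_pos hC hp y)) hval⟩
  exact ⟨a, fun j => by simp only [ha, hcnt, hEx, recd, hP, hQdef, hCh]; congr, hreach⟩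

lemma exists_wit (hC : C.Valid) (hp : C.IsPar par) {col : V → Fin (C.k + 1)}
    (hcol : ∀ a b, a ∈ C.K b → col a ≠ col b) :
    ∀ (m : ℕ) (y : V), hgt C y < m → ∃ W, IsWit C par col m y W := by
  intro m
  induction m with
  | zero => intro y hy; omega
  | succ m ih =>
    intro y hy
    obtain ⟨a, ha, hreach⟩ := exists_profile hC hp m y
    set Ch := children par y with hCh
    set Ex := recd C par m y with hEx
    have hchoose : ∀ d : V, ∃ W, d ∈ Ch → IsWit C par col m d W := fun d => by
      by_cases hd : d ∈ Ch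
      · obtain ⟨W, hW⟩ := ih d (by have := hgt_lt hC hp hd; omega)
        exact ⟨W, fun _ => hW⟩
      · exact ⟨(∅, ∅), fun h => absurd h hd⟩
    choose w hw using hchoose
    set R := Ch.filter fun d => lev C par d ∈ Ex with hR
    set av := avail C par y with hav
    have hRC : ∀ d ∈ R, d ∈ Ch := fun d hd => (mem_filter.1 hd).1
    have hbagR : ∀ d ∈ R, pbag C par d = bag C par y := fun d hd => pbag_child (hRC d hd)
    have hinW : ∀ d ∈ R, ∀ z ∈ (w d).1, C.ord y < C.ord z := fun d hd z hz =>
      lt_of_lt_of_le (par_lt hC hp (mem_filter.1 (hRC d hd)).2)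
        (desc_ord hC hp ((hw d (hRC d hd)).2.1 z hz))
    have huniq : ∀ d ∈ R, ∀ d' ∈ R, ∀ z ∈ (w d).1, z ∈ (w d').1 → d = d' :=
      fun d hd d' hd' z hz hz' => desc_unique hC hp (mem_filter.1 (hRC d hd)).2
        (mem_filter.1 (hRC d' hd')).2 ((hw d (hRC d hd)).2.1 z hz) ((hw d' (hRC d' hd')).2.1 z hz')
    refine ⟨(insert y (R.biUnion fun d => (w d).1),
      av.image (fun z => s(y, z)) ∪ R.biUnion fun d => (w d).2), mem_insert_self _ _, ?_, ?_, ?_, ?_⟩
    · intro z hz
      rcases mem_insert.1 hz with rfl | hz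
      · exact Relation.ReflTransGen.refl
      · obtain ⟨d, hd, hzd⟩ := mem_biUnion.1 hz
        exact ((hw d (hRC d hd)).2.1 z hzd).tail (mem_filter.1 (hRC d hd)).2
    · intro e he
      rcases mem_union.1 he with he | he
      · obtain ⟨z, hz, rfl⟩ := mem_image.1 he
        rw [Sym2.eq_swap]
        exact (mem_filter.1 hz).2
      · obtain ⟨d, hd, hed⟩ := mem_biUnion.1 he
        exact (hw d (hRC d hd)).2.2.1 hed
    · intro e he
      rcases mem_union.1 he with he | he
      · obtain ⟨z, hz, rfl⟩ := mem_image.1 he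
        refine ⟨fun b hb => ?_, y, Sym2.mem_mk_left _ _, mem_insert_self _ _⟩
        rcases Sym2.mem_iff.1 hb with rfl | rfl
        · exact Or.inl (mem_insert_self _ _)
        · exact Or.inr (mem_filter.1 hz).1
      · obtain ⟨d, hd, hed⟩ := mem_biUnion.1 he
        obtain ⟨h1, b, hb, hb'⟩ := (hw d (hRC d hd)).2.2.2.1 e hed
        refine ⟨fun c hc => ?_, b, hb, mem_insert_of_mem (mem_biUnion.2 ⟨d, hd, hb'⟩)⟩
        rcases h1 c hc with h | h
        · exact Or.inl (mem_insert_of_mem (mem_biUnion.2 ⟨d, hd, h⟩))
        · rw [hbagR d hd, bag_eq hC hp] at h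
          rcases mem_insert.1 h with rfl | h
          · exact Or.inl (mem_insert_self _ _)
          · exact Or.inr (mem_inter.1 h).2
    intro π t ht
    set t' := Function.update t (col y) (π y) with ht'
    have hagree : ∀ b ∈ bag C par y, t' (col b) = π b := by
      intro b hb
      rw [bag_eq hC hp] at hb
      rcases mem_insert.1 hb with rfl | hb
      · simp [ht']
      · rw [ht', Function.update_of_ne (hcol b y (mem_inter.1 hb).1)]
        exact ht b (mem_inter.1 hb).2
    set ob : V → Obj C.n := fun d => ((w d).1.image π, (w d).2.image (Sym2.map π)) with hob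
    have hobinj : Set.InjOn ob R := by
      intro d hd d' hd' he
      have h1 : π d ∈ (w d').1.image π := by
        have : π d ∈ (w d).1.image π := mem_image_of_mem π (hw d (hRC d hd)).1
        rwa [show (w d).1.image π = (w d').1.image π from congrArg Prod.fst he] at this
      obtain ⟨z, hz, hzd⟩ := mem_image.1 h1
      rw [π.injective hzd] at hz
      exact huniq d hd d' hd' d (hw d (hRC d hd)).1 hz
    set avc : Finset (Fin (C.k + 1)) := av.image col with havc
    have hcolav : Set.InjOn col av := by
      intro b hb c hc he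
      cases hpy : par y with
      | none => simp [hav, avail, pbag, hpy] at hb
      | some p =>
        have hb' := (mem_filter.1 hb).1
        have hc' := (mem_filter.1 hc).1
        rw [pbag, hpy] at hb' hc'
        exact col_injOn_bag hC hp hcol p hb' hc' he
    have havcard : avc.card = av.card := card_image_of_injOn hcolav
    set S : (profOf C par).I → Finset (Obj C.n) := fun j => (R.filter fun d => lev C par d = j).image ob with hS
    have hScard : ∀ j, (S j).card = a j := fun j => by
      rw [hS, card_image_of_injOn (hobinj.mono (filter_subset _ _))]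
      by_cases hj : j ∈ Ex
      · rw [ha, if_pos hj]
        congr 1
        ext d
        simp only [hR, mem_filter]
        exact ⟨fun h => ⟨h.1.1, h.2⟩, fun h => ⟨⟨h.1, h.2 ▸ hj⟩, h.2⟩⟩
      · rw [ha, if_neg hj, card_eq_zero]
        exact filter_eq_empty_iff.2 fun {d} hd h => hj (h ▸ (mem_filter.1 hd).2)
    have hU1 : univ.biUnion (fun j => (S j).biUnion Prod.fst)
        = (R.biUnion fun d => (w d).1).image π := by
      ext z
      simp only [hS, hob, mem_biUnion, mem_univ, true_and, mem_image, mem_filter]
      constructor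
      · rintro ⟨j, o, ⟨d, ⟨hd, -⟩, rfl⟩, hz⟩
        obtain ⟨b, hb, rfl⟩ := mem_image.1 hz
        exact ⟨b, ⟨d, hd, hb⟩, rfl⟩
      · rintro ⟨b, ⟨d, hd, hb⟩, rfl⟩
        exact ⟨_, _, ⟨d, ⟨hd, rfl⟩, rfl⟩, mem_image.2 ⟨b, hb, rfl⟩⟩
    have hU2 : univ.biUnion (fun j => (S j).biUnion Prod.snd)
        = (R.biUnion fun d => (w d).2).image (Sym2.map π) := by
      ext z
      simp only [hS, hob, mem_biUnion, mem_univ, true_and, mem_image, mem_filter]
      constructor
      · rintro ⟨j, o, ⟨d, ⟨hd, -⟩, rfl⟩, hz⟩
        obtain ⟨b, hb, rfl⟩ := mem_image.1 hz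
        exact ⟨b, ⟨d, hd, hb⟩, rfl⟩
      · rintro ⟨b, ⟨d, hd, hb⟩, rfl⟩
        exact ⟨_, _, ⟨d, ⟨hd, rfl⟩, rfl⟩, mem_image.2 ⟨b, hb, rfl⟩⟩
    have hpavc : avc.image (fun i => s(π y, t i)) = (av.image fun z => s(y, z)).image (Sym2.map π) := by
      rw [havc, image_image, image_image]
      exact image_congr fun z hz => by simp [ht z (mem_filter.1 hz).1]
    have heq : ((insert y (R.biUnion fun d => (w d).1)).image π,
        (av.image (fun z => s(y, z)) ∪ R.biUnion fun d => (w d).2).image (Sym2.map π))
        = mkObj t (π y) avc S := by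
      simp only [mkObj, joinObj, hU1, hU2, image_insert, image_union, hpavc]
    have hdisj : Disjoint (av.image fun z => s(y, z)) (R.biUnion fun d => (w d).2) := by
      rw [disjoint_left]
      intro e he he'
      obtain ⟨z, hz, rfl⟩ := mem_image.1 he
      obtain ⟨d, hd, hed⟩ := mem_biUnion.1 he'
      obtain ⟨b, hb, hb'⟩ := ((hw d (hRC d hd)).2.2.2.1 _ hed).2
      have := hinW d hd b hb'
      rcases Sym2.mem_iff.1 hb with rfl | rfl
      · omega
      · have := ord_pbag hC hp (mem_filter.1 hz).1
        omega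
    have hdisj2 : (R : Set V).PairwiseDisjoint fun d => (w d).2 := by
      intro d hd d' hd' hne
      rw [Function.onFun, disjoint_left]
      intro e he he'
      obtain ⟨b, hb, hb'⟩ := ((hw d (hRC d hd)).2.2.2.1 e he).2
      rcases ((hw d' (hRC d' hd')).2.2.2.1 e he').1 b hb with h | h
      · exact hne (huniq d hd d' hd' b hb' h)
      · rw [hbagR d' hd'] at h
        have := hinW d hd b hb'
        have := ord_bag hC hp h
        omega
    have hcard : (mkObj t (π y) avc S).2.card = avc.card + ∑ j, ∑ o ∈ S j, o.2.card := by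
      rw [← heq]
      simp only
      rw [card_image_of_injective _ (Sym2.map.injective π.injective), card_union_of_disjoint hdisj,
        card_biUnion hdisj2, havcard, card_image_of_injOn]
      · congr 1
        rw [← sum_fiberwise R (lev C par)]
        refine sum_congr rfl fun j _ => ?_
        rw [hS, sum_image (hobinj.mono (filter_subset _ _))]
        exact sum_congr rfl fun d _ =>
          (card_image_of_injective _ (Sym2.map.injective π.injective)).symm
      · intro b _ c _ h
        exact Sym2.congr_right.1 h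
    rw [heq]
    show _ ∈ famStep (profOf C par) m (Fam (profOf C par) m) t _
    refine mem_biUnion.2 ⟨col y, mem_univ _, mem_biUnion.2 ⟨avc, mem_univ _, mem_biUnion.2
      ⟨a, ?_, mem_biUnion.2 ⟨π y, mem_univ _, mem_image.2 ⟨S, mem_filter.2 ⟨?_, hcard⟩, rfl⟩⟩⟩⟩⟩
    · exact Eq.mpr (congrArg (fun s => a ∈ (profOf C par).reach ((profOf C par).Qseq m) s
        (lev C par y : ℤ)) havcard) hreach
    · refine Fintype.mem_piFinset.2 fun j => mem_powersetCard.2 ⟨fun o ho => ?_, hScard j⟩
      obtain ⟨d, hd, rfl⟩ := mem_image.1 ho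
      obtain ⟨hdR, hdj⟩ := mem_filter.1 hd
      have := (hw d (hRC d hdR)).2.2.2.2 π t' fun b hb => hagree b (hbagR d hdR ▸ hb)
      rw [hdj] at this
      exact this

lemma count_le_of_pow {x : ℝ} (hx : 0 ≤ x) {a : ℕ}
    (h : (1 / 2 : ℝ) ≤ x ^ a / a.factorial) : (a : ℝ) ≤ 2 * Real.exp 1 * x := by
  rcases Nat.eq_zero_or_pos a with rfl | h0
  · simpa using mul_nonneg (mul_nonneg two_pos.le (Real.exp_pos 1).le) hx
  by_contra hc
  rw [not_le] at hc
  have ha0 : (0 : ℝ) < a := by exact_mod_cast h0
  have hfac : (a : ℝ) ^ a / a.factorial ≤ Real.exp 1 ^ a := by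
    rw [Real.exp_one_pow]
    exact Real.pow_div_factorial_le_exp _ ha0.le _
  set u := x / a with hu
  have hu0 : 0 ≤ u := div_nonneg hx ha0.le
  have hy : u * Real.exp 1 < 1 / 2 := by
    rw [hu, div_mul_eq_mul_div, div_lt_iff₀ ha0]; linarith
  have h1 : x ^ a / a.factorial ≤ (u * Real.exp 1) ^ a := by
    have e : x ^ a / a.factorial = u ^ a * ((a : ℝ) ^ a / a.factorial) := by
      rw [hu, div_pow]; field_simp
    rw [e, mul_pow]
    exact mul_le_mul_of_nonneg_left hfac (pow_nonneg hu0 a)
  have hy0 : 0 ≤ u * Real.exp 1 := mul_nonneg hu0 (Real.exp_pos 1).le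
  have h2 : (u * Real.exp 1) ^ a ≤ u * Real.exp 1 :=
    pow_le_of_le_one hy0 (by linarith) (Nat.pos_iff_ne_zero.1 h0)
  linarith

/-- The roots have bounded total richness. -/
theorem rootSum_le (hC : C.Valid) (hp : C.IsPar par) :
    ∑ y ∈ rootSet par, rich C par y ≤ 6 := by
  obtain ⟨col, hcol⟩ := exists_colouring hC
  set P := profOf C par with hP
  set m := Fintype.card V + 1 with hm
  have hQ0 : ∀ j, 0 ≤ P.Qseq m j := Prof.Qseq_nonneg (P := P) hC.q0 m
  have hn0 : 0 < C.n := by have := hC.nn; omega
  have hQ1 : ∑ j ∈ P.I, Prof.γ j * P.Qseq m j ≤ 1 :=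
    Prof.Qseq_bound (P := P) hn0 hC.q0 hC.qk m
  have hwit : ∀ y : V, ∃ W, IsWit C par col m y W := fun y =>
    exists_wit hC hp hcol m y (Nat.lt_succ_of_le (card_le_univ _))
  choose w hw using hwit
  let t : Fin (C.k + 1) → Fin C.n := fun _ => ⟨0, hn0⟩
  have hcount : ∀ j : P.I, (((rootSet par).filter fun y => lev C par y = j).card : ℝ)
      ≤ 2 * Real.exp 1 * P.Qseq m j := by
    intro j
    set R := (rootSet par).filter fun y => lev C par y = j with hR
    have hroot : ∀ y ∈ R, par y = none := fun y hy => (mem_filter.1 (mem_filter.1 hy).1).2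
    have hpb : ∀ y ∈ R, pbag C par y = ∅ := fun y hy => by rw [pbag, hroot y hy]; rfl
    have huniq : ∀ d ∈ R, ∀ d' ∈ R, ∀ z ∈ (w d).1, z ∈ (w d').1 → d = d' :=
      fun d hd d' hd' z hz hz' =>
        desc_unique hC hp (hroot d hd) (hroot d' hd') ((hw d).2.1 z hz) ((hw d').2.1 z hz')
    set A := R.biUnion fun y => (w y).1 with hA
    set E := R.biUnion fun y => (w y).2 with hE
    have hEA : ∀ e ∈ E, ∀ a ∈ e, a ∈ A := by
      intro e he a ha
      obtain ⟨y, hy, hey⟩ := mem_biUnion.1 he
      rcases ((hw y).2.2.2.1 e hey).1 a ha with h | h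
      · exact mem_biUnion.2 ⟨y, hy, h⟩
      · simp [hpb y hy] at h
    have horb := hC.orbit A E (fun e he => by
      obtain ⟨y, hy, hey⟩ := mem_biUnion.1 he
      exact (hw y).2.2.1 hey) hEA
    set Im := (univ : Finset (V ↪ Fin C.n)).image
      fun π : V ↪ Fin C.n => (A.image π, E.image (Sym2.map π)) with hIm
    set F := Fam P m t (j : ℤ) with hF
    have hdisjE : (R : Set V).PairwiseDisjoint fun y => (w y).2 := by
      intro d hd d' hd' hne
      rw [Function.onFun, disjoint_left]
      intro e he he'
      obtain ⟨b, hb, hb'⟩ := ((hw d).2.2.2.1 e he).2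
      rcases ((hw d').2.2.2.1 e he').1 b hb with h | h
      · exact hne (huniq d hd d' hd' b hb' h)
      · simp [hpb d' hd'] at h
    set dom := (F.powersetCard R.card).filter fun S => (S.biUnion Prod.snd).card = ∑ o ∈ S, o.2.card
      with hdom
    have hsub : Im ⊆ dom.image fun S : Finset (Obj C.n) => (S.biUnion Prod.fst, S.biUnion Prod.snd) := by
      intro o ho
      obtain ⟨π, -, rfl⟩ := mem_image.1 ho
      set ob : V → Obj C.n := fun y => ((w y).1.image π, (w y).2.image (Sym2.map π)) with hob
      have hobinj : Set.InjOn ob R := by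
        intro d hd d' hd' he
        have h1 : π d ∈ (w d').1.image π := by
          have : π d ∈ (w d).1.image π := mem_image_of_mem π (hw d).1
          rwa [show (w d).1.image π = (w d').1.image π from congrArg Prod.fst he] at this
        obtain ⟨z, hz, hzd⟩ := mem_image.1 h1
        rw [π.injective hzd] at hz
        exact huniq d hd d' hd' d (hw d).1 hz
      have e1 : (R.image ob).biUnion Prod.fst = A.image π := by
        rw [image_biUnion, hA, biUnion_image]
      have e2 : (R.image ob).biUnion Prod.snd = E.image (Sym2.map π) := by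
        rw [image_biUnion, hE, biUnion_image]
      refine mem_image.2 ⟨R.image ob, mem_filter.2 ⟨mem_powersetCard.2 ⟨fun o' ho' => ?_,
        card_image_of_injOn hobinj⟩, ?_⟩, by rw [e1, e2]⟩
      · obtain ⟨y, hy, rfl⟩ := mem_image.1 ho'
        have := (hw y).2.2.2.2 π t (by simp [hpb y hy])
        rw [(mem_filter.1 hy).2] at this
        exact this
      · refine (congrArg Finset.card e2).trans ?_
        rw [card_image_of_injective _ (Sym2.map.injective π.injective), hE, card_biUnion hdisjE]
        refine Eq.trans ?_ (sum_image (f := fun o : Obj C.n => o.2.card) hobinj).symm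
        exact sum_congr rfl fun y _ =>
          (card_image_of_injective _ (Sym2.map.injective π.injective)).symm
    have hle : (1 / 2 : ℝ) ≤ P.Qseq m j ^ R.card / R.card.factorial := by
      have hw0 : ∀ o : Obj C.n, 0 ≤ C.q ^ o.2.card := fun o => pow_nonneg hC.q0.le _
      calc (1 / 2 : ℝ) ≤ Im.card * C.q ^ E.card := horb
        _ = ∑ o ∈ Im, C.q ^ o.2.card := by
            rw [← nsmul_eq_mul, ← sum_const]
            refine sum_congr rfl fun o ho => ?_
            obtain ⟨π, -, rfl⟩ := mem_image.1 ho
            rw [card_image_of_injective _ (Sym2.map.injective π.injective)]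
        _ ≤ ∑ o ∈ dom.image fun S : Finset (Obj C.n) => (S.biUnion Prod.fst, S.biUnion Prod.snd),
              C.q ^ o.2.card := sum_le_sum_of_subset_of_nonneg hsub fun o _ _ => hw0 o
        _ ≤ ∑ S ∈ dom, C.q ^ (S.biUnion Prod.snd).card := sum_image_le_of_nonneg fun o _ => hw0 o
        _ = ∑ S ∈ dom, ∏ o ∈ S, C.q ^ o.2.card := sum_congr rfl fun S hS => by
            rw [(mem_filter.1 hS).2, prod_pow_eq_pow_sum]
        _ ≤ ∑ S ∈ F.powersetCard R.card, ∏ o ∈ S, C.q ^ o.2.card :=
            sum_le_sum_of_subset_of_nonneg (filter_subset _ _)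
              fun S _ _ => prod_nonneg fun o _ => hw0 o
        _ ≤ _ := (esymm_le _ hw0 F R.card).trans (div_le_div_of_nonneg_right
            (pow_le_pow_left₀ (sum_nonneg fun o _ => hw0 o) (Fam_wt P hC.q0 m t j) _)
            (Nat.cast_nonneg _))
    exact count_le_of_pow (hQ0 j) hle
  calc ∑ y ∈ rootSet par, rich C par y
      = ∑ j : P.I, ∑ y ∈ (rootSet par).filter (fun y => lev C par y = j), rich C par y :=
        (sum_fiberwise (rootSet par) (lev C par) _).symm
    _ ≤ ∑ j : P.I, Prof.γ j * (2 * Real.exp 1 * P.Qseq m j) := by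
        refine sum_le_sum fun j _ => ?_
        calc ∑ y ∈ (rootSet par).filter (fun y => lev C par y = j), rich C par y
            ≤ ∑ _y ∈ (rootSet par).filter (fun y => lev C par y = j), Prof.γ (j : ℤ) :=
              sum_le_sum fun y hy => (mem_filter.1 hy).2 ▸ rich_le_γ hC hp y
          _ ≤ _ := by
              rw [sum_const, nsmul_eq_mul, mul_comm]
              exact mul_le_mul_of_nonneg_left (hcount j) (Prof.γ_pos _).le
    _ = 2 * Real.exp 1 * ∑ j ∈ P.I, Prof.γ j * P.Qseq m j := by
        rw [← sum_coe_sort P.I, mul_sum]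
        exact sum_congr rfl fun j _ => by ring
    _ ≤ 6 := by
        have := mul_le_mul_of_nonneg_left hQ1 (mul_nonneg two_pos.le (Real.exp_pos 1).le)
        linarith [Real.exp_one_lt_d9]

end Vale.Agent.P064.Tw
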